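import Mathlib.RingTheory.GradedAlgebra.Basic
import Mathlib.Algebra.DirectSum.Decomposition
import Mathlib.Algebra.Exact.Basic

/-!
# Graded modules over a graded ring, elementary form
-/

set_option linter.all false

namespace Vale.Agent.P257

open DirectSum

variable {R : Type} [CommRing R] {σ : Type} [SetLike σ R] [AddSubgroupClass σ R]

/-- `M` is the internal direct sum of the subgroups `gr j`, and this makes it a graded module over
the ring `R` graded by `𝒜`. -/
structure IsGradedModule (𝒜 : ℤ → σ) {M : Type} [AddCommGroup M] [Module R M]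
    (gr : ℤ → AddSubgroup M) : Prop where
  isInternal : DirectSum.IsInternal gr
  smul_mem : ∀ {i j : ℤ} {r : R} {x : M}, r ∈ 𝒜 i → x ∈ gr j → r • x ∈ gr (i + j)

namespace IsGradedModule

variable {𝒜 : ℤ → σ} {M : Type} [AddCommGroup M] [Module R M]
  {gr : ℤ → AddSubgroup M} (h : IsGradedModule 𝒜 gr)

include h

/-- The homogeneous component of degree `j`. -/
noncomputable def pr (j : ℤ) (x : M) : M :=
  letI := h.isInternal.chooseDecomposition
  (DirectSum.decompose gr x j : M)

theorem pr_mem (j : ℤ) (x : M) : h.pr j x ∈ gr j := by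
  letI := h.isInternal.chooseDecomposition
  exact (DirectSum.decompose gr x j).2

theorem pr_add (j : ℤ) (x y : M) : h.pr j (x + y) = h.pr j x + h.pr j y := by
  letI := h.isInternal.chooseDecomposition
  simp [pr, DirectSum.decompose_add]

theorem pr_zero (j : ℤ) : h.pr j 0 = 0 := by
  letI := h.isInternal.chooseDecomposition
  simp [pr]

theorem pr_of_mem {j : ℤ} {x : M} (hx : x ∈ gr j) : h.pr j x = x := by
  letI := h.isInternal.chooseDecomposition
  exact DirectSum.decompose_of_mem_same gr hx

theorem pr_of_mem_ne {i j : ℤ} {x : M} (hx : x ∈ gr i) (hij : i ≠ j) : h.pr j x = 0 := by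
  letI := h.isInternal.chooseDecomposition
  exact DirectSum.decompose_of_mem_ne gr hx hij

/-- Induction over homogeneous elements. -/
theorem induction {p : M → Prop} (h0 : p 0) (hadd : ∀ x y, p x → p y → p (x + y))
    (hom : ∀ j x, x ∈ gr j → p x) (x : M) : p x := by
  letI := h.isInternal.chooseDecomposition
  exact DirectSum.Decomposition.inductionOn gr h0 (fun {i} m => hom i m m.2) hadd x

theorem ext_pr {x y : M} (hxy : ∀ j, h.pr j x = h.pr j y) : x = y := by
  letI := h.isInternal.chooseDecomposition
  apply (DirectSum.decompose gr).injective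
  ext j
  exact hxy j

/-- An element all of whose components satisfy... lies in a given subgroup. -/
theorem mem_of_pr_mem {x : M} {S : AddSubgroup M} (hS : ∀ j, h.pr j x ∈ S) : x ∈ S := by
  classical
  letI := h.isInternal.chooseDecomposition
  rw [← DirectSum.sum_support_decompose gr x]
  exact S.sum_mem fun j _ => hS j

/-- Additive maps shifting degrees commute with the projections. -/
theorem map_pr {N : Type} [AddCommGroup N] [Module R N] {gr' : ℤ → AddSubgroup N}
    (h' : IsGradedModule 𝒜 gr') (f : M →+ N) (s : ℤ)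
    (hf : ∀ {j x}, x ∈ gr j → f x ∈ gr' (j + s)) (j : ℤ) (x : M) :
    f (h.pr j x) = h'.pr (j + s) (f x) := by
  induction x using h.induction with
  | h0 => rw [h.pr_zero, map_zero, h'.pr_zero]
  | hadd x y hx hy => rw [h.pr_add, map_add, map_add, h'.pr_add, hx, hy]
  | hom i x hx =>
    by_cases hij : i = j
    · subst hij
      rw [h.pr_of_mem hx, h'.pr_of_mem (hf hx)]
    · rw [h.pr_of_mem_ne hx hij, h'.pr_of_mem_ne (hf hx) (by omega), map_zero]

variable [GradedRing 𝒜]

theorem pr_smul {b : ℤ} {w : M} (hw : w ∈ gr b) (j : ℤ) (r : R) :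
    h.pr (j + b) (r • w) = (DirectSum.decompose 𝒜 r j : R) • w := by
  induction r using DirectSum.Decomposition.inductionOn 𝒜 with
  | zero => simp [h.pr_zero]
  | @homogeneous i m =>
    by_cases hij : i = j
    · subst hij
      rw [h.pr_of_mem (h.smul_mem m.2 hw), DirectSum.decompose_of_mem_same 𝒜 m.2]
    · rw [h.pr_of_mem_ne (h.smul_mem m.2 hw) (by omega),
        DirectSum.decompose_of_mem_ne 𝒜 m.2 hij, zero_smul]
  | add r s hr hs =>
    rw [add_smul, h.pr_add, hr, hs, DirectSum.decompose_add, DirectSum.add_apply]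
    push_cast
    rw [add_smul]

/-- A homogeneous multiple of a homogeneous element is a multiple by a homogeneous element. -/
theorem exists_homog {b j : ℤ} {w x : M} (hw : w ∈ gr b) (hx : x ∈ gr j) {r : R}
    (hr : r • w = x) : ∃ s ∈ 𝒜 (j - b), s • w = x := by
  refine ⟨DirectSum.decompose 𝒜 r (j - b), SetLike.coe_mem _, ?_⟩
  rw [← h.pr_smul hw, hr, sub_add_cancel, h.pr_of_mem hx]

end IsGradedModule

end Vale.Agent.P257
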