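import Vale.Agent.P257.H690.Defs
import Vale.Agent.P257.H690.Grading

set_option linter.all false

/-!
# Consequences of the axioms: isomorphisms, homotopies, the exact sequence of a triple
-/

namespace Vale.Agent.P257

open CategoryTheory Simplicial SSet

noncomputable section

/-- the degree `j` part of `BP_*` -/
noncomputable def grading (p : ℕ) (K : Type) [CommRing K] :
    ℤ → Submodule K (MvPolynomial ℕ K) :=
  MvPolynomial.weightedHomogeneousSubmodule K fun i => deg p (i + 1)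

theorem mem_grading_iff {p : ℕ} {K : Type} [CommRing K] {j : ℤ} {r : MvPolynomial ℕ K} :
    r ∈ grading p K j ↔ IsHomog p r j := Iff.rfl

namespace BPTheory

variable {p : ℕ} {K : Type} [CommRing K] (E : BPTheory p K)

theorem graded (P : SPair) : IsGradedModule (grading p K) (E.gr P) :=
  ⟨E.isInternal P, fun hr hx => E.smul_mem hr hx⟩

/-- the induced map, as a linear map -/
def mapL {P Q : SPair} (φ : P.Hom Q) : E.H P →ₗ[MvPolynomial ℕ K] E.H Q :=
  IsLinearMap.mk' _ (E.isLinearMap_map φ)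

/-- the boundary map, as a linear map -/
def bdL (P : SPair) : E.H P →ₗ[MvPolynomial ℕ K] E.H (SPair.abs P.A) :=
  IsLinearMap.mk' _ (E.isLinearMap_bd P)

@[simp] theorem mapL_apply {P Q : SPair} (φ : P.Hom Q) (x : E.H P) : E.mapL φ x = E.map φ x := rfl

@[simp] theorem bdL_apply (P : SPair) (x : E.H P) : E.bdL P x = E.bd P x := rfl

theorem map_zero' {P Q : SPair} (φ : P.Hom Q) : E.map φ 0 = 0 := (E.mapL φ).map_zero

theorem map_sub' {P Q : SPair} (φ : P.Hom Q) (x y : E.H P) :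
    E.map φ (x - y) = E.map φ x - E.map φ y := (E.mapL φ).map_sub x y

theorem map_add' {P Q : SPair} (φ : P.Hom Q) (x y : E.H P) :
    E.map φ (x + y) = E.map φ x + E.map φ y := (E.mapL φ).map_add x y

theorem map_smul' {P Q : SPair} (φ : P.Hom Q) (r : MvPolynomial ℕ K) (x : E.H P) :
    E.map φ (r • x) = r • E.map φ x := (E.mapL φ).map_smul r x

theorem bd_zero' {P : SPair} : E.bd P 0 = 0 := (E.bdL P).map_zero

theorem bd_sub' {P : SPair} (x y : E.H P) : E.bd P (x - y) = E.bd P x - E.bd P y :=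
  (E.bdL P).map_sub x y

/-- composition of maps of pairs -/
def _root_.Vale.Agent.P257.SPair.Hom.comp {P Q S : SPair} (φ : P.Hom Q) (χ : Q.Hom S) : P.Hom S :=
  ⟨φ.f ≫ χ.f, fun n _ hx => χ.le n (φ.le n hx)⟩

theorem map_map {P Q S : SPair} (φ : P.Hom Q) (χ : Q.Hom S) (x : E.H P) :
    E.map χ (E.map φ x) = E.map (φ.comp χ) x := E.map_comp φ χ _ x rfl

theorem map_eq_of_eq {P Q : SPair} {φ χ : P.Hom Q} (h : φ.f = χ.f) (x : E.H P) :
    E.map φ x = E.map χ x := by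
  cases φ
  cases χ
  cases h
  rfl

/-- Maps which are bijective in each simplicial degree and compatible with the subcomplexes induce
bijections. -/
theorem bijective_of_bijective {P Q : SPair} (φ : P.Hom Q)
    (hφ : ∀ n, Function.Bijective (φ.f.app n)) (h : P.A = Q.A.preimage φ.f) :
    Function.Bijective (E.map φ) := by
  apply E.excision
  intro n
  refine ⟨?_, (hφ n).1.injOn, ?_⟩
  · intro x hx hx'
    apply hx
    rw [h]
    exact hx'
  · intro y hy
    obtain ⟨x, rfl⟩ := (hφ n).2 y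
    refine ⟨x, ?_, rfl⟩
    intro hx
    rw [h] at hx
    exact hy hx

/-- The homology of `(X, X)` vanishes. -/
theorem eq_zero_of_top {P : SPair} (hP : P.A = ⊤) (x : E.H P) : x = 0 := by
  obtain ⟨X, A⟩ := P
  change A = ⊤ at hP
  subst hP
  have hb : Function.Bijective (E.map (SPair.ofAbs (X := ((⊤ : X.Subcomplex) : SSet.{0}))
      (Q := SPair.abs X) (⊤ : X.Subcomplex).ι)) := by
    apply E.bijective_of_bijective
    · intro n
      constructor
      · intro x y hxy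
        exact Subtype.ext hxy
      · intro x
        exact ⟨⟨x, trivial⟩, rfl⟩
    · rfl
  have h1 : E.bd ⟨X, ⊤⟩ x = 0 := by
    have h2 := (E.exact₃ ⟨X, ⊤⟩ (E.bd _ x)).2 ⟨x, rfl⟩
    exact hb.1 (h2.trans (E.map_zero' _).symm)
  obtain ⟨y, rfl⟩ := (E.exact₂ ⟨X, ⊤⟩ x).1 h1
  refine (E.exact₁ ⟨X, ⊤⟩ y).2 ?_
  obtain ⟨y', rfl⟩ := hb.2 y
  exact ⟨y', rfl⟩

/-- A map of pairs that factors through a pair `(X, X)` induces zero. -/
theorem map_eq_zero_of_factor {P Q : SPair} (X : SSet.{0}) (φ : P.Hom Q) (f : P.X ⟶ X)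
    (g : X ⟶ Q.X) (hg : ∀ n x, g.app n x ∈ Q.A.obj n) (h : φ.f = f ≫ g) (x : E.H P) :
    E.map φ x = 0 := by
  let φ₁ : P.Hom ⟨X, ⊤⟩ := ⟨f, fun _ _ _ => trivial⟩
  let φ₂ : (⟨X, ⊤⟩ : SPair).Hom Q := ⟨g, fun n x _ => hg n x⟩
  rw [← E.map_comp φ₁ φ₂ φ x h, E.eq_zero_of_top (P := ⟨X, ⊤⟩) rfl (E.map φ₁ x), E.map_zero']

/-! ### Homotopies -/

/-- the inclusion of `P` in the cylinder, at a vertex of `Δ¹` -/
def cylIncl (P : SPair) (ε : (Δ[0] : SSet.{0}) ⟶ Δ[1]) : P.Hom P.cyl :=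
  ⟨CartesianMonoidalCategory.lift (𝟙 P.X) (stdSimplex.isTerminalObj₀.from P.X ≫ ε),
    fun _ _ hx => hx⟩

theorem map_homotopy {P Q : SPair} (h : P.cyl.Hom Q) (ε ε' : (Δ[0] : SSet.{0}) ⟶ Δ[1])
    (x : E.H P) : E.map ((cylIncl P ε).comp h) x = E.map ((cylIncl P ε').comp h) x := by
  have key : ∀ ε : (Δ[0] : SSet.{0}) ⟶ Δ[1], E.map P.cylFst (E.map (cylIncl P ε) x) = x := by
    intro ε
    rw [E.map_map]
    exact E.map_id _ x (CartesianMonoidalCategory.lift_fst _ _)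
  rw [← E.map_map, ← E.map_map, (E.homotopy P).1 ((key ε).trans (key ε').symm)]

/-! ### Pairs of subcomplexes of a simplicial set, and triples -/

section

variable {Z : SSet.{0}}

/-- the pair `(B, A ∩ B)` -/
def pr (A B : Z.Subcomplex) : SPair := ⟨B, A.preimage B.ι⟩

/-- the inclusion of pairs -/
def prHom {A B A' B' : Z.Subcomplex} (hA : A ≤ A') (hB : B ≤ B') : (pr A B).Hom (pr A' B') :=
  ⟨Subcomplex.homOfLE hB, fun n _ hx => hA n hx⟩

/-- the induced map -/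
def pm {A B A' B' : Z.Subcomplex} (hA : A ≤ A') (hB : B ≤ B') :
    E.H (pr A B) →ₗ[MvPolynomial ℕ K] E.H (pr A' B') := E.mapL (prHom hA hB)

theorem pm_pm {A B A' B' A'' B'' : Z.Subcomplex} (hA : A ≤ A') (hB : B ≤ B') (hA' : A' ≤ A'')
    (hB' : B' ≤ B'') (x : E.H (pr A B)) :
    E.pm hA' hB' (E.pm hA hB x) = E.pm (hA.trans hA') (hB.trans hB') x :=
  E.map_comp _ _ _ x rfl

theorem pm_id {A B : Z.Subcomplex} (x : E.H (pr A B)) : E.pm le_rfl le_rfl x = x :=
  E.map_id _ x rfl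

theorem pm_mem {A B A' B' : Z.Subcomplex} (hA : A ≤ A') (hB : B ≤ B') {j : ℤ}
    {x : E.H (pr A B)} (hx : x ∈ E.gr _ j) : E.pm hA hB x ∈ E.gr _ j := E.map_mem _ hx

/-- the map `E(A) → E(B)` -/
def am {A B : Z.Subcomplex} (h : A ≤ B) :
    E.H (SPair.abs A) →ₗ[MvPolynomial ℕ K] E.H (SPair.abs B) :=
  E.mapL (SPair.ofAbs (Q := SPair.abs B) (Subcomplex.homOfLE h))

theorem am_am {A B C : Z.Subcomplex} (h : A ≤ B) (h' : B ≤ C) (x : E.H (SPair.abs A)) :
    E.am h' (E.am h x) = E.am (h.trans h') x := E.map_comp _ _ _ x rfl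

/-- the map `E(B) → E(B, A)` -/
def qm (A B : Z.Subcomplex) : E.H (SPair.abs B) →ₗ[MvPolynomial ℕ K] E.H (pr A B) :=
  E.mapL (SPair.ofAbs (Q := pr A B) (𝟙 _))

theorem pm_qm {A B A' B' : Z.Subcomplex} (hA : A ≤ A') (hB : B ≤ B') (x : E.H (SPair.abs B)) :
    E.pm hA hB (E.qm A B x) = E.qm A' B' (E.am hB x) := by
  change E.map _ (E.map _ _) = E.map _ (E.map _ _)
  rw [E.map_map, E.map_map]
  apply E.map_eq_of_eq
  exact (Category.id_comp _).trans (Category.comp_id _).symm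

/-- the comparison `A ∩ B → A` -/
def eHom (A B : Z.Subcomplex) : (SPair.abs (A.preimage B.ι)).Hom (SPair.abs A) :=
  SPair.ofAbs (Q := SPair.abs A) (Subcomplex.fromPreimage A B.ι)

theorem eHom_bijective {A B : Z.Subcomplex} (h : A ≤ B) :
    Function.Bijective (E.map (eHom A B)) := by
  apply E.bijective_of_bijective
  · intro n
    constructor
    · rintro ⟨⟨x, hx⟩, hx'⟩ ⟨⟨y, hy⟩, hy'⟩ hxy
      have := congrArg Subtype.val hxy
      apply Subtype.ext
      apply Subtype.ext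
      exact this
    · rintro ⟨x, hx⟩
      exact ⟨⟨⟨x, h n hx⟩, hx⟩, rfl⟩
  · rfl

/-- the boundary map `E(B, A) → E(A)` -/
def dm (A B : Z.Subcomplex) : E.H (pr A B) →ₗ[MvPolynomial ℕ K] E.H (SPair.abs A) :=
  (E.mapL (eHom A B)).comp (E.bdL (pr A B))

theorem dm_apply (A B : Z.Subcomplex) (x : E.H (pr A B)) :
    E.dm A B x = E.map (eHom A B) (E.bd (pr A B) x) := rfl

theorem dm_mem {A B : Z.Subcomplex} {j : ℤ} {x : E.H (pr A B)} (hx : x ∈ E.gr _ j) :
    E.dm A B x ∈ E.gr _ (j - 1) := E.map_mem _ (E.bd_mem hx)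

theorem dm_pm {A B A' B' : Z.Subcomplex} (hA : A ≤ A') (hB : B ≤ B') (x : E.H (pr A B)) :
    E.dm A' B' (E.pm hA hB x) = E.am hA (E.dm A B x) := by
  have h0 : E.pm hA hB x = E.map (prHom hA hB) x := rfl
  rw [dm_apply, dm_apply, h0]
  let χ : (SPair.abs (A.preimage B.ι)).Hom (SPair.abs (A'.preimage B'.ι)) :=
    SPair.ofAbs (Q := SPair.abs (A'.preimage B'.ι))
      (Subcomplex.lift ((A.preimage B.ι).ι ≫ Subcomplex.homOfLE hB) (by
        rintro n _ ⟨y, rfl⟩
        exact hA n y.2))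
  have h1 := E.bd_nat (prHom hA hB) χ x rfl
  rw [← h1]
  exact (E.map_map χ (eHom A' B') _).trans ((E.map_eq_of_eq rfl _).trans
    (E.map_map (eHom A B) (SPair.ofAbs (Q := SPair.abs A') (Subcomplex.homOfLE hA)) _).symm)

theorem exact_am_qm {A B : Z.Subcomplex} (h : A ≤ B) : Function.Exact (E.am h) (E.qm A B) := by
  intro x
  rw [show E.qm A B x = 0 ↔ _ from E.exact₁ (pr A B) x]
  constructor
  · rintro ⟨y, rfl⟩
    refine ⟨E.map (eHom A B) y, ?_⟩
    exact E.map_comp _ _ _ y rfl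
  · rintro ⟨y, rfl⟩
    obtain ⟨y, rfl⟩ := (E.eHom_bijective h).2 y
    exact ⟨y, (E.map_comp _ _ _ y rfl).symm⟩

theorem exact_qm_dm {A B : Z.Subcomplex} (h : A ≤ B) : Function.Exact (E.qm A B) (E.dm A B) := by
  intro x
  rw [dm_apply, show E.map (eHom A B) (E.bd (pr A B) x) = 0 ↔ E.bd (pr A B) x = 0 from
    map_eq_zero_iff (E.mapL (eHom A B)) (E.eHom_bijective h).1]
  exact E.exact₂ (pr A B) x

theorem exact_dm_am {A B : Z.Subcomplex} (h : A ≤ B) : Function.Exact (E.dm A B) (E.am h) := by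
  intro x
  obtain ⟨x, rfl⟩ := (E.eHom_bijective h).2 x
  have h1 : E.am h (E.map (eHom A B) x) =
      E.map (SPair.ofAbs (Q := SPair.abs (pr A B).X) (pr A B).A.ι) x := E.map_comp _ _ _ x rfl
  rw [h1]
  refine (E.exact₃ (pr A B) x).trans ?_
  constructor
  · rintro ⟨y, rfl⟩
    exact ⟨y, rfl⟩
  · rintro ⟨y, hy⟩
    exact ⟨y, (E.eHom_bijective h).1 hy⟩

theorem pm_top {A B B' : Z.Subcomplex} (hA : A ≤ B') (hB : B ≤ B') (h : B ≤ B)
    (x : E.H (pr B B)) : x = 0 := by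
  apply E.eq_zero_of_top
  apply le_antisymm le_top
  intro n y _
  exact y.2

/-- the boundary map of the triple `A ≤ B ≤ C` -/
def tm (A B C : Z.Subcomplex) : E.H (pr B C) →ₗ[MvPolynomial ℕ K] E.H (pr A B) :=
  (E.qm A B).comp (E.dm B C)

theorem tm_apply (A B C : Z.Subcomplex) (x : E.H (pr B C)) :
    E.tm A B C x = E.qm A B (E.dm B C x) := rfl

theorem tm_mem {A B C : Z.Subcomplex} {j : ℤ} {x : E.H (pr B C)} (hx : x ∈ E.gr _ j) :
    E.tm A B C x ∈ E.gr _ (j - 1) := E.map_mem _ (E.dm_mem hx)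

theorem tm_nat {A B C A' B' C' : Z.Subcomplex} (hA : A ≤ A') (hB : B ≤ B') (hC : C ≤ C')
    (x : E.H (pr B C)) : E.pm hA hB (E.tm A B C x) = E.tm A' B' C' (E.pm hB hC x) := by
  rw [tm_apply, tm_apply, pm_qm, dm_pm]

variable {A B C : Z.Subcomplex} (hAB : A ≤ B) (hBC : B ≤ C)

include hAB hBC

theorem pm_pm_zero (x : E.H (pr A B)) :
    E.pm hAB (le_refl C) (E.pm (le_refl A) hBC x) = 0 := by
  have h1 : E.pm hAB (le_refl C) (E.pm (le_refl A) hBC x) =
      E.pm (le_refl B) hBC (E.pm hAB (le_refl B) x) := by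
    rw [pm_pm, pm_pm]
  rw [h1, E.pm_top hBC hBC le_rfl (E.pm hAB (le_refl B) x), map_zero]

/-- exactness of `E(B, A) → E(C, A) → E(C, B)` -/
theorem exact_mid : Function.Exact (E.pm (le_refl A) hBC) (E.pm hAB (le_refl C)) := by
  intro x
  constructor
  · intro hx
    have h1 : E.am hAB (E.dm A C x) = 0 := by
      rw [← E.dm_pm hAB (le_refl C), hx, map_zero]
    obtain ⟨y, hy⟩ := (E.exact_dm_am hAB _).1 h1
    have h2 : E.dm A C (x - E.pm (le_refl A) hBC y) = 0 := by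
      rw [map_sub, dm_pm, hy]
      have : E.am (le_refl A) (E.dm A C x) = E.dm A C x := E.map_id _ _ rfl
      rw [this, sub_self]
    obtain ⟨z, hz⟩ := (E.exact_qm_dm (hAB.trans hBC) _).1 h2
    have h3 : E.qm B C z = 0 := by
      have h4 : E.pm hAB (le_refl C) (E.qm A C z) = E.qm B C z := by
        rw [pm_qm]
        congr 1
        exact E.map_id _ _ rfl
      rw [← h4, hz, map_sub, hx, pm_pm_zero, sub_self]
    obtain ⟨w, hw⟩ := (E.exact_am_qm hBC _).1 h3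
    refine ⟨y + E.qm A B w, ?_⟩
    rw [map_add, pm_qm, hw, hz]
    abel
  · rintro ⟨y, rfl⟩
    exact E.pm_pm_zero hAB hBC y

/-- exactness of `E(C, A) → E(C, B) → E(B, A)` -/
theorem exact_tm : Function.Exact (E.pm hAB (le_refl C)) (E.tm A B C) := by
  intro x
  constructor
  · intro hx
    obtain ⟨y, hy⟩ := (E.exact_am_qm hAB _).1 hx
    have h1 : E.am (hAB.trans hBC) y = 0 := by
      rw [← E.am_am hAB hBC, hy]
      exact (E.exact_dm_am hBC _).2 ⟨x, rfl⟩
    obtain ⟨z, hz⟩ := (E.exact_dm_am (hAB.trans hBC) _).1 h1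
    have h2 : E.dm B C (x - E.pm hAB (le_refl C) z) = 0 := by
      rw [map_sub, dm_pm, hz, hy, sub_self]
    obtain ⟨t, ht⟩ := (E.exact_qm_dm hBC _).1 h2
    refine ⟨z + E.qm A C t, ?_⟩
    have h4 : E.pm hAB (le_refl C) (E.qm A C t) = E.qm B C t := by
      rw [pm_qm]
      congr 1
      exact E.map_id _ _ rfl
    rw [map_add, h4, ht]
    abel
  · rintro ⟨y, rfl⟩
    rw [tm_apply, dm_pm]
    exact (E.exact_am_qm hAB _).2 ⟨_, rfl⟩

/-- exactness of `E(C, B) → E(B, A) → E(C, A)` -/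
theorem exact_tm_pm : Function.Exact (E.tm A B C) (E.pm (le_refl A) hBC) := by
  intro x
  constructor
  · intro hx
    have h1 : E.dm A B x = 0 := by
      have h2 : E.dm A C (E.pm (le_refl A) hBC x) = E.dm A B x := by
        rw [dm_pm]
        exact E.map_id _ _ rfl
      rw [← h2, hx, map_zero]
    obtain ⟨y, rfl⟩ := (E.exact_qm_dm hAB _).1 h1
    have h2 : E.qm A C (E.am hBC y) = 0 := by
      rw [← E.pm_qm (le_refl A) hBC, hx]
    obtain ⟨z, hz⟩ := (E.exact_am_qm (hAB.trans hBC) _).1 h2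
    have h3 : E.am hBC (y - E.am hAB z) = 0 := by
      rw [map_sub, am_am, hz, sub_self]
    obtain ⟨t, ht⟩ := (E.exact_dm_am hBC _).1 h3
    refine ⟨t, ?_⟩
    rw [tm_apply, ht, map_sub, sub_eq_self]
    exact (E.exact_am_qm hAB _).2 ⟨_, rfl⟩
  · rintro ⟨y, rfl⟩
    rw [tm_apply, pm_qm]
    have h1 : E.am hBC (E.dm B C y) = 0 := (E.exact_dm_am hBC _).2 ⟨y, rfl⟩
    rw [h1, map_zero]

end

end BPTheory

end

end Vale.Agent.P257
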