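import Vale.Agent.P257.H690.Core3
import Vale.Agent.P257.H690.Ring
import Vale.Agent.P257.H690.Triple
import Mathlib.RingTheory.DiscreteValuationRing.Basic

set_option linter.all false

/-!
# The coefficient ring `BP_* = K[v_1, v_2, …]`
-/

namespace Vale.Agent.P257

/-- `1 + ∑_{i < k} (|v_i| + 1)`, which is one more than the dimension of `V(k - 1)`. -/
def bound (p k : ℕ) : ℤ := 1 + ∑ i ∈ Finset.range k, (deg p i + 1)

noncomputable instance (p : ℕ) (K : Type) [CommRing K] : GradedRing (grading p K) :=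
  MvPolynomial.weightedGradedAlgebra K fun i => deg p (i + 1)

section facts

variable (p : ℕ) (K : Type) [CommRing K]

theorem v_eq_vv (k : ℕ) : v p K k = RingFacts.vv (p : K) k := by
  rcases k with _ | k
  · simp [v, RingFacts.vv]
  · simp [v, RingFacts.vv]

theorem idealOf_eq_J (k : ℕ) : idealOf (v p K) k = RingFacts.J (p : K) (fun _ => 1) k := by
  simp only [idealOf, RingFacts.J, pow_one, v_eq_vv]

theorem idealOf_eq_span (k : ℕ) : idealOf (v p K) k = Ideal.span (v p K '' Set.Iio k) := by
  rw [idealOf]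
  congr 1
  ext r
  constructor
  · rintro ⟨i, hi, rfl⟩
    exact ⟨i, hi, rfl⟩
  · rintro ⟨i, hi, rfl⟩
    exact ⟨i, hi, rfl⟩

variable {p} {K} (hp : 2 ≤ p)

include hp in
theorem deg_eq (k : ℕ) : deg p k = (RingFacts.dg p k : ℤ) := by
  have : 1 ≤ p ^ k := Nat.one_le_pow _ _ (by omega)
  simp only [deg, RingFacts.dg]
  push_cast [this]
  ring

include hp in
theorem weight_eq (m : ℕ →₀ ℕ) :
    Finsupp.weight (fun i => deg p (i + 1)) m = ((Finsupp.weight (RingFacts.wt p) m : ℕ) : ℤ) := by
  rw [Finsupp.weight_apply, Finsupp.weight_apply, Finsupp.sum, Finsupp.sum]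
  push_cast
  refine Finset.sum_congr rfl fun i _ => ?_
  rw [deg_eq hp, RingFacts.wt]
  simp

theorem mem_grading {j : ℤ} {r : MvPolynomial ℕ K} :
    r ∈ grading p K j ↔ MvPolynomial.IsWeightedHomogeneous (fun i => deg p (i + 1)) r j := Iff.rfl

include hp in
theorem mem_grading_nat {j : ℕ} {r : MvPolynomial ℕ K} :
    r ∈ grading p K j ↔ MvPolynomial.IsWeightedHomogeneous (RingFacts.wt p) r j := by
  rw [mem_grading]
  simp only [MvPolynomial.IsWeightedHomogeneous, weight_eq hp]
  norm_cast

include hp in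
theorem grading_neg {j : ℤ} (hj : j < 0) {r : MvPolynomial ℕ K} (hr : r ∈ grading p K j) :
    r = 0 := by
  ext m
  by_contra h0
  have := hr h0
  rw [weight_eq hp] at this
  omega

theorem C_mem_zero (c : K) : (MvPolynomial.C c : MvPolynomial ℕ K) ∈ grading p K 0 :=
  MvPolynomial.isWeightedHomogeneous_C _ c

variable [IsDomain K] [IsDiscreteValuationRing K] (hK : Irreducible (p : K))

include hK in
theorem unit_or_dvd (c : K) : IsUnit c ∨ (p : K) ∣ c := by
  by_cases h : IsUnit c
  · exact Or.inl h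
  · right
    have h1 : c ∈ IsLocalRing.maximalIdeal K := h
    rw [hK.maximalIdeal_eq, Ideal.mem_span_singleton] at h1
    exact h1

include hp hK in
theorem goodSeq : GoodSeq (grading p K) (MvPolynomial.C (p : K)) (v p K) (deg p) (bound p) where
  neg j hj r hr := grading_neg hp hj hr
  loc c hc := by
    have hc' := (mem_grading_nat hp (j := 0)).1 (by exact_mod_cast hc)
    have h1 := RingFacts.eq_C_of_isWeightedHomogeneous_zero hp hc'
    rw [h1]
    rcases unit_or_dvd hK (MvPolynomial.coeff 0 c) with h | ⟨e, he⟩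
    · left
      obtain ⟨u, hu⟩ := h.exists_left_inv
      exact ⟨MvPolynomial.C u, C_mem_zero u, by rw [← map_mul, hu, map_one]⟩
    · right
      exact ⟨MvPolynomial.C e, C_mem_zero e, by rw [← map_mul, ← he]⟩
  p_mem := C_mem_zero _
  not_unit := by
    intro h
    apply hK.not_isUnit
    have := h.map (MvPolynomial.constantCoeff (σ := ℕ) (R := K))
    rwa [MvPolynomial.constantCoeff_C] at this
  dvd := by
    rw [v_eq_vv]
    exact dvd_rfl
  mem k := by
    rw [deg_eq hp, mem_grading_nat hp, v_eq_vv]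
    exact RingFacts.isWeightedHomogeneous_vv (p : K) p k
  reg k r h := by
    rw [idealOf_eq_J] at h ⊢
    refine RingFacts.mem_of_mul_mem hK.ne_zero ?_
    rwa [pow_one, ← v_eq_vv]
  low k i hi r hr h := by
    rw [idealOf_eq_J] at h ⊢
    rcases lt_or_ge i 0 with hneg | hpos
    · rw [grading_neg hp hneg hr]
      exact Ideal.zero_mem _
    · lift i to ℕ using hpos
      rw [mem_grading_nat hp] at hr
      refine RingFacts.mem_J_of_degree_lt h hr ?_
      rw [deg_eq hp] at hi
      rw [one_mul]
      exact_mod_cast hi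
  D_zero := by simp [bound]
  D_succ k := by
    simp only [bound, Finset.sum_range_succ]
    ring
  D_le k hk := by
    have := RingFacts.sum_dg_le hp hk
    rw [bound, deg_eq hp]
    simp only [deg_eq hp]
    exact_mod_cast this
  d_nonneg k := by
    rw [deg_eq hp]
    positivity

include hp in
theorem deg_mono : Monotone (deg p) := by
  intro k l h
  rw [deg_eq hp, deg_eq hp]
  exact_mod_cast RingFacts.dg_mono hp h

omit [IsDomain K] [IsDiscreteValuationRing K] in
include hp in
/-- homogeneous elements of small positive degree are in the ideal -/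
theorem mem_idealOf_of_pos {k : ℕ} {j : ℤ} (hj : 0 < j) (hjk : j < deg p k)
    {r : MvPolynomial ℕ K} (hr : r ∈ grading p K j) : r ∈ idealOf (v p K) k := by
  classical
  lift j to ℕ using hj.le
  rw [mem_grading_nat hp] at hr
  rw [idealOf_eq_J, RingFacts.mem_J_iff]
  intro m
  by_cases h0 : MvPolynomial.coeff m r = 0
  · exact Or.inr (by rw [h0]; exact Ideal.zero_mem _)
  left
  have hw := hr h0
  rw [Finsupp.weight_apply, Finsupp.sum] at hw
  have hne : ∃ i ∈ m.support, m i • RingFacts.wt p i ≠ 0 := by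
    by_contra hcon
    push Not at hcon
    rw [Finset.sum_eq_zero hcon] at hw
    omega
  obtain ⟨i, hi, hne⟩ := hne
  have h1 : m i • RingFacts.wt p i ≤ j := by
    rw [← hw]
    exact Finset.single_le_sum (f := fun i => m i • RingFacts.wt p i) (fun _ _ => Nat.zero_le _) hi
  have hmi : 1 ≤ m i := Nat.one_le_iff_ne_zero.2 (Finsupp.mem_support_iff.1 hi)
  refine ⟨i, ?_, hmi⟩
  by_contra hik
  have h2 : RingFacts.dg p k ≤ RingFacts.dg p (i + 1) := RingFacts.dg_mono hp (by omega)
  have h3 : 1 * RingFacts.wt p i ≤ m i • RingFacts.wt p i := Nat.mul_le_mul_right _ hmi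
  rw [deg_eq hp] at hjk
  have h4 : j < RingFacts.dg p k := by exact_mod_cast hjk
  rw [RingFacts.wt] at h1 h3
  omega

omit [IsDomain K] [IsDiscreteValuationRing K] in
theorem C_mem_idealOf {k : ℕ} {c : K} :
    (MvPolynomial.C c : MvPolynomial ℕ K) ∈ idealOf (v p K) (k + 1) ↔ (p : K) ∣ c := by
  constructor
  · intro h
    have h1 : MvPolynomial.constantCoeff (MvPolynomial.C c : MvPolynomial ℕ K) ∈
        Ideal.map (MvPolynomial.constantCoeff (σ := ℕ) (R := K)) (idealOf (v p K) (k + 1)) :=
      Ideal.mem_map_of_mem _ h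
    rw [MvPolynomial.constantCoeff_C] at h1
    rw [← Ideal.mem_span_singleton]
    refine Ideal.map_le_iff_le_comap.2 ?_ h1
    refine Ideal.span_le.2 ?_
    rintro _ ⟨i, hi, rfl⟩
    rw [SetLike.mem_coe, Ideal.mem_comap, v_eq_vv]
    rcases i with _ | i
    · rw [RingFacts.vv, MvPolynomial.constantCoeff_C]
      exact Ideal.mem_span_singleton_self _
    · rw [RingFacts.vv, MvPolynomial.constantCoeff_X]
      exact Ideal.zero_mem _
  · rintro ⟨e, rfl⟩
    rw [map_mul]
    refine Ideal.mul_mem_right _ _ (Ideal.subset_span ⟨0, by omega, ?_⟩)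
    rw [v_eq_vv]
    rfl

include hK in
omit [IsDomain K] [IsDiscreteValuationRing K] in
theorem one_not_mem {k : ℕ} : (1 : MvPolynomial ℕ K) ∉ idealOf (v p K) k := by
  intro h
  have h1 : (MvPolynomial.C 1 : MvPolynomial ℕ K) ∈ idealOf (v p K) (k + 1) := by
    rw [map_one]
    exact idealOf_mono _ (Nat.le_succ k) h
  rw [C_mem_idealOf] at h1
  exact hK.not_isUnit (isUnit_of_dvd_one h1)

omit [IsDomain K] [IsDiscreteValuationRing K] in
include hp in
theorem eq_C_of_mem_zero {r : MvPolynomial ℕ K} (hr : r ∈ grading p K 0) :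
    ∃ c : K, r = MvPolynomial.C c :=
  ⟨_, RingFacts.eq_C_of_isWeightedHomogeneous_zero hp
    ((mem_grading_nat hp (j := 0)).1 (by exact_mod_cast hr))⟩

end facts

end Vale.Agent.P257
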