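import Vale.Agent.P257.H690.Triple
import Mathlib.AlgebraicTopology.SimplicialSet.Boundary
import Mathlib.AlgebraicTopology.SimplicialSet.Horn
import Mathlib.AlgebraicTopology.SimplicialSet.NonDegenerateSimplices

set_option linter.all false

/-!
# Attaching a nondegenerate simplex, and the homology of `(Δ[n], ∂Δ[n])`
-/

namespace Vale.Agent.P257

open CategoryTheory Simplicial Limits Opposite SSet MonoidalCategory CartesianMonoidalCategory

/-- the characteristic map of a simplex of `B` -/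
def charMap {Z : SSet.{0}} {A B : Z.Subcomplex} {d : ℕ} (x : Z _⦋d⦌)
    (hpre : A.preimage (SSet.yonedaEquiv.symm x) = ∂Δ[d])
    (hB : A ⊔ Subcomplex.ofSimplex x = B) :
    (⟨Δ[d], ∂Δ[d]⟩ : SPair).Hom (BPTheory.pr A B) :=
  ⟨Subcomplex.lift (SSet.yonedaEquiv.symm x) (by
    rw [Subcomplex.range_eq_ofSimplex, ← hB]
    simp), by
    rw [← hpre]
    intro n y hy
    exact hy⟩

theorem charMap_app {Z : SSet.{0}} {A B : Z.Subcomplex} {d : ℕ} (x : Z _⦋d⦌)
    (hpre : A.preimage (SSet.yonedaEquiv.symm x) = ∂Δ[d])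
    (hB : A ⊔ Subcomplex.ofSimplex x = B) {n : SimplexCategory} (f : n ⟶ ⦋d⦌) :
    ((charMap x hpre hB).f.app _ (stdSimplex.objEquiv.symm f)).val = Z.map f.op x := by
  have := yonedaEquiv_symm_app_objEquiv_symm x f
  exact this

theorem charMap_mem {Z : SSet.{0}} {A B : Z.Subcomplex} {d : ℕ} (x : Z _⦋d⦌)
    (hpre : A.preimage (SSet.yonedaEquiv.symm x) = ∂Δ[d])
    (hB : A ⊔ Subcomplex.ofSimplex x = B) (n : SimplexCategoryᵒᵖ) (y : (Δ[d] : SSet.{0}).obj n) :
    (charMap x hpre hB).f.app n y ∈ (BPTheory.pr A B).A.obj n ↔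
      y ∈ (∂Δ[d] : (Δ[d] : SSet.{0}).Subcomplex).obj n := by
  have h : y ∈ (A.preimage (SSet.yonedaEquiv.symm x)).obj n ↔
      y ∈ (∂Δ[d] : (Δ[d] : SSet.{0}).Subcomplex).obj n := by rw [hpre]
  exact h

theorem boundary_compl {d : ℕ} {n : SimplexCategory} {s : (Δ[d] : SSet.{0}).obj (op n)}
    (hs : s ∉ (∂Δ[d] : (Δ[d] : SSet.{0}).Subcomplex).obj (op n)) :
    ∃ (f : n ⟶ ⦋d⦌) (_ : Epi f), stdSimplex.objEquiv.symm f = s := by
  refine ⟨stdSimplex.objEquiv s, ?_, by simp⟩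
  induction n using SimplexCategory.rec with | _ n
  simpa [SimplexCategory.epi_iff_surjective, boundary] using! hs

theorem charMap_bijOn {Z : SSet.{0}} {A B : Z.Subcomplex} {d : ℕ} (x : Z _⦋d⦌)
    (hpre : A.preimage (SSet.yonedaEquiv.symm x) = ∂Δ[d])
    (hB : A ⊔ Subcomplex.ofSimplex x = B) (hx : x ∈ Z.nonDegenerate d) (n : SimplexCategoryᵒᵖ) :
    Set.BijOn ((charMap x hpre hB).f.app n)
      ((∂Δ[d] : (Δ[d] : SSet.{0}).Subcomplex).obj n)ᶜ ((BPTheory.pr A B).A.obj n)ᶜ := by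
  obtain ⟨n⟩ := n
  induction n using SimplexCategory.rec with | _ n
  refine ⟨?_, ?_, ?_⟩
  · intro y hy hy'
    exact hy ((charMap_mem x hpre hB _ y).1 hy')
  · intro x₁ hx₁ x₂ hx₂ h
    obtain ⟨f₁, _, rfl⟩ := boundary_compl hx₁
    obtain ⟨f₂, _, rfl⟩ := boundary_compl hx₂
    have h' : Z.map f₁.op x = Z.map f₂.op x := by
      rw [← charMap_app x hpre hB f₁, ← charMap_app x hpre hB f₂]
      exact congrArg Subtype.val h
    obtain rfl : f₁ = f₂ := Z.unique_nonDegenerate_map _ f₁ ⟨_, hx⟩ rfl f₂ ⟨_, hx⟩ h'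
    rfl
  · rintro ⟨y, hy⟩ hyA
    have hy' : y ∈ (A ⊔ Subcomplex.ofSimplex x).obj _ := by
      rw [hB]
      exact hy
    rcases hy' with hy' | ⟨f, rfl⟩
    · exact absurd hy' hyA
    · refine ⟨stdSimplex.objEquiv.symm f.unop, ?_, ?_⟩
      · intro h
        exact hyA ((charMap_mem x hpre hB _ _).2 h)
      · exact Subtype.ext (charMap_app x hpre hB _)

/-- the contraction of `Δ[n]` to the vertex `0` -/
def contract (n : ℕ) : Δ[n] ⊗ Δ[1] ⟶ (Δ[n] : SSet.{0}) where
  app m := ↾fun x => stdSimplex.objMk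
    { toFun := fun i => if stdSimplex.asOrderHom x.2 i = 0 then 0 else stdSimplex.asOrderHom x.1 i
      monotone' := by
        intro i j hij
        dsimp only
        have h1 := (stdSimplex.asOrderHom x.1).monotone hij
        have h2 := (stdSimplex.asOrderHom x.2).monotone hij
        split_ifs with hi hj
        · exact le_rfl
        · exact Fin.zero_le _
        · rename_i hj
          exact absurd (Fin.le_zero_iff.1 (hj ▸ h2)) hi
        · exact h1 }
  naturality := fun _ _ _ => rfl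

theorem contract_apply {n : ℕ} {m : SimplexCategoryᵒᵖ} (x : (Δ[n] : SSet.{0}).obj m)
    (t : (Δ[1] : SSet.{0}).obj m) (i) :
    stdSimplex.asOrderHom ((contract n).app m (x, t)) i =
      if stdSimplex.asOrderHom t i = 0 then 0 else stdSimplex.asOrderHom x i := rfl

theorem asOrderHom_injective {n : ℕ} {m : SimplexCategoryᵒᵖ} {x y : (Δ[n] : SSet.{0}).obj m}
    (h : ∀ i, stdSimplex.asOrderHom x i = stdSimplex.asOrderHom y i) : x = y := by
  apply stdSimplex.objEquiv.injective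
  ext i : 3
  exact h i

theorem contract_mem {n : ℕ} {m : SimplexCategoryᵒᵖ} {x : (Δ[n] : SSet.{0}).obj m}
    (hx : x ∈ (Λ[n, 0] : Δ[n].Subcomplex).obj m) (t : (Δ[1] : SSet.{0}).obj m) :
    (contract n).app m (x, t) ∈ (Λ[n, 0] : Δ[n].Subcomplex).obj m := by
  rw [mem_horn_iff] at hx ⊢
  intro h
  apply hx
  rw [Set.eq_univ_iff_forall] at h ⊢
  intro j
  rcases h j with ⟨i, hi⟩ | h
  · rw [contract_apply] at hi
    split_ifs at hi with h0
    · exact Or.inr hi.symm
    · exact Or.inl ⟨i, hi⟩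
  · exact Or.inr h

/-- the pair `(Δ[n], Λ[n, 0])` -/
abbrev hornPair (n : ℕ) : SPair := ⟨Δ[n], Λ[n, 0]⟩

/-- the contraction of the pair `(Δ[n], Λ[n, 0])` -/
def hornContract (n : ℕ) : (hornPair n).cyl.Hom (hornPair n) :=
  ⟨contract n, fun _ x hx => contract_mem (x := x.1) hx x.2⟩

/-- the vertices of `Δ[n]` -/
def vertex (n : ℕ) (i : Fin (n + 1)) : (Δ[0] : SSet.{0}) ⟶ Δ[n] :=
  SSet.const (stdSimplex.obj₀Equiv.symm i)

theorem vertex_app (n : ℕ) (i : Fin (n + 1)) {m : SimplexCategoryᵒᵖ} (x : (Δ[0] : SSet.{0}).obj m)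
    (j) : stdSimplex.asOrderHom ((vertex n i).app m x) j = i := rfl

theorem horn_sup_face (n : ℕ) :
    (Λ[n + 1, 0] : (Δ[n + 1] : SSet.{0}).Subcomplex) ⊔
      Subcomplex.ofSimplex (stdSimplex.objEquiv.symm (SimplexCategory.δ (0 : Fin (n + 2)))) =
      ∂Δ[n + 1] := by
  have h : Subcomplex.ofSimplex (stdSimplex.objEquiv.symm (SimplexCategory.δ (0 : Fin (n + 2)))) =
      (stdSimplex.face {0}ᶜ : (Δ[n + 1] : SSet.{0}).Subcomplex) :=
    (stdSimplex.face_singleton_compl _).symm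
  rw [h, horn_eq_iSup, boundary_eq_iSup]
  apply le_antisymm
  · refine sup_le (iSup_le fun j => ?_) ?_
    · exact le_iSup (fun i : Fin (n + 2) => stdSimplex.face {i}ᶜ) j.1
    · exact le_iSup (fun i : Fin (n + 2) => stdSimplex.face {i}ᶜ) 0
  · refine iSup_le fun j => ?_
    by_cases hj : j = 0
    · subst hj
      exact le_sup_right
    · exact le_sup_of_le_left
        (le_iSup (fun i : ({0}ᶜ : Set (Fin (n + 2))) => stdSimplex.face {i.1}ᶜ) ⟨j, hj⟩)

theorem horn_preimage (n : ℕ) :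
    (Λ[n + 1, 0] : (Δ[n + 1] : SSet.{0}).Subcomplex).preimage
      (SSet.yonedaEquiv.symm (stdSimplex.objEquiv.symm (SimplexCategory.δ (0 : Fin (n + 2))))) =
      ∂Δ[n] := by
  have h1 : ∀ (m : SimplexCategoryᵒᵖ) (x : (Δ[n] : SSet.{0}).obj m) (i),
      stdSimplex.asOrderHom ((SSet.yonedaEquiv.symm
        (stdSimplex.objEquiv.symm (SimplexCategory.δ (0 : Fin (n + 2))) :
          (Δ[n + 1] : SSet.{0}).obj _)).app m x) i = (stdSimplex.asOrderHom x i).succ :=
    fun m x i => rfl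
  ext m x
  have h2 : x ∈ ((Λ[n + 1, 0] : (Δ[n + 1] : SSet.{0}).Subcomplex).preimage
      (SSet.yonedaEquiv.symm (stdSimplex.objEquiv.symm
        (SimplexCategory.δ (0 : Fin (n + 2)))))).obj m ↔
      Set.range (stdSimplex.asOrderHom ((SSet.yonedaEquiv.symm
        (stdSimplex.objEquiv.symm (SimplexCategory.δ (0 : Fin (n + 2))) :
          (Δ[n + 1] : SSet.{0}).obj _)).app m x)) ∪ {0} ≠ Set.univ := Iff.rfl
  have h3 : x ∈ (∂Δ[n] : (Δ[n] : SSet.{0}).Subcomplex).obj m ↔
      ¬ Function.Surjective (stdSimplex.asOrderHom x) := Iff.rfl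
  rw [h2, h3, not_iff_not, Set.eq_univ_iff_forall]
  constructor
  · intro h j
    rcases h j.succ with ⟨i, hi⟩ | h
    · rw [h1] at hi
      exact ⟨i, Fin.succ_injective _ hi⟩
    · exact absurd h (Fin.succ_ne_zero j)
  · intro h j
    rcases Fin.eq_zero_or_eq_succ j with rfl | ⟨k, rfl⟩
    · exact Or.inr rfl
    · obtain ⟨i, hi⟩ := h k
      exact Or.inl ⟨i, by rw [h1, hi]⟩

namespace BPTheory

variable {p : ℕ} {K : Type} [CommRing K] (E : BPTheory p K)

theorem horn_zero (n : ℕ) (x : E.H (hornPair (n + 1))) : x = 0 := by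
  have h1 : ((cylIncl (hornPair (n + 1)) (vertex 1 1)).comp (hornContract (n + 1))).f = 𝟙 _ := by
    ext m x
    apply asOrderHom_injective
    intro i
    rfl
  have h2 : ((cylIncl (hornPair (n + 1)) (vertex 1 0)).comp (hornContract (n + 1))).f =
      stdSimplex.isTerminalObj₀.from _ ≫ vertex (n + 1) 0 := by
    ext m x
    apply asOrderHom_injective
    intro i
    rfl
  rw [← E.map_id _ x h1, E.map_homotopy (hornContract (n + 1)) (vertex 1 1) (vertex 1 0)]
  refine E.map_eq_zero_of_factor Δ[0] _ _ _ ?_ h2 x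
  intro m t
  rw [mem_horn_iff]
  intro h
  rw [Set.eq_univ_iff_forall] at h
  rcases h (Fin.last _) with ⟨i, hi⟩ | h
  · rw [vertex_app] at hi
    exact absurd hi.symm (Fin.last_pos).ne'
  · exact absurd h (Fin.last_pos).ne'

/-- the comparison `(Z, A) ≅ (⊤, A ∩ ⊤)` -/
theorem top_bijective {Z : SSet.{0}} (A B : Z.Subcomplex) (hB : B = ⊤) :
    Function.Bijective (E.map (⟨B.ι, le_rfl⟩ : (pr A B).Hom ⟨Z, A⟩)) := by
  subst hB
  apply E.bijective_of_bijective
  · intro n
    constructor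
    · intro x y hxy
      exact Subtype.ext hxy
    · intro x
      exact ⟨⟨x, trivial⟩, rfl⟩
  · rfl

theorem map_pr {P Q : SPair} (φ : P.Hom Q) (j : ℤ) (x : E.H P) :
    E.map φ ((E.graded P).pr j x) = (E.graded Q).pr j (E.map φ x) := by
  have := (E.graded P).map_pr (E.graded Q) (E.mapL φ).toAddMonoidHom 0
    (fun {j x} hx => by simpa using E.map_mem φ hx) j x
  simpa using this

/-- homogeneous elements lift along bijections -/
theorem exists_lift {P Q : SPair} (φ : P.Hom Q) (hφ : Function.Bijective (E.map φ)) {a : ℤ}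
    {x : E.H Q} (hx : x ∈ E.gr Q a) : ∃ y ∈ E.gr P a, E.map φ y = x := by
  obtain ⟨y, hy⟩ := hφ.2 x
  exact ⟨(E.graded P).pr a y, (E.graded P).pr_mem a y, by
    rw [E.map_pr, hy, (E.graded Q).pr_of_mem hx]⟩

/-- transporting a generator along a bijection -/
theorem gen_transport {P Q : SPair} (φ : P.Hom Q) (hφ : Function.Bijective (E.map φ)) {d : ℤ}
    (h : ∃ e ∈ E.gr P d, Function.Bijective fun r : MvPolynomial ℕ K => r • e) :
    ∃ e ∈ E.gr Q d, Function.Bijective fun r : MvPolynomial ℕ K => r • e := by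
  obtain ⟨e, he, hbij⟩ := h
  refine ⟨E.map φ e, E.map_mem _ he, ?_⟩
  have h5 : (fun r : MvPolynomial ℕ K => r • E.map φ e) =
      fun r : MvPolynomial ℕ K => E.map φ (r • e) := by
    funext r
    rw [map_smul']
  rw [h5]
  exact hφ.comp hbij

/-- transporting a generator back along a bijection -/
theorem gen_transport' {P Q : SPair} (φ : P.Hom Q) (hφ : Function.Bijective (E.map φ)) {d : ℤ}
    (h : ∃ e ∈ E.gr Q d, Function.Bijective fun r : MvPolynomial ℕ K => r • e) :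
    ∃ e ∈ E.gr P d, Function.Bijective fun r : MvPolynomial ℕ K => r • e := by
  obtain ⟨e, he, hbij⟩ := h
  obtain ⟨e, he', rfl⟩ := E.exists_lift φ hφ he
  refine ⟨e, he', ?_⟩
  have h5 : (fun r : MvPolynomial ℕ K => r • E.map φ e) =
      E.map φ ∘ fun r : MvPolynomial ℕ K => r • e := by
    funext r
    exact (map_smul' _ _ _ _).symm
  rw [h5] at hbij
  exact (Function.Bijective.of_comp_iff' hφ _).1 hbij

/-- `E(Δ[d], ∂Δ[d])` is free on a generator of degree `d` -/
theorem sphere (d : ℕ) : ∃ e ∈ E.gr ⟨Δ[d], ∂Δ[d]⟩ (d : ℤ),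
    Function.Bijective fun r : MvPolynomial ℕ K => r • e := by
  induction d with
  | zero =>
    rw [boundary_zero]
    exact E.coeff
  | succ d ih =>
    have hnd : (stdSimplex.objEquiv.symm (SimplexCategory.δ (0 : Fin (d + 2))) :
        (Δ[d + 1] : SSet.{0}) _⦋d⦌) ∈ (Δ[d + 1] : SSet.{0}).nonDegenerate d :=
      (stdSimplex.objEquiv_symm_mem_nonDegenerate_iff_mono _).2 inferInstance
    have h1 := E.gen_transport (charMap _ (horn_preimage d) (horn_sup_face d))
      (E.excision _ (charMap_bijOn _ (horn_preimage d) (horn_sup_face d) hnd)) ih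
    have hle : (Λ[d + 1, 0] : (Δ[d + 1] : SSet.{0}).Subcomplex) ≤ ∂Δ[d + 1] := by
      rw [← horn_sup_face]
      exact le_sup_left
    obtain ⟨e, he, hbij⟩ := h1
    apply E.gen_transport _ (E.top_bijective (∂Δ[d + 1] : (Δ[d + 1] : SSet.{0}).Subcomplex) ⊤ rfl)
    have hz : ∀ y : E.H (pr (Λ[d + 1, 0] : (Δ[d + 1] : SSet.{0}).Subcomplex) ⊤), y = 0 := by
      intro y
      apply (E.top_bijective _ _ rfl).1
      rw [map_zero']
      exact E.horn_zero d _
    have hδ : Function.Bijective (E.tm (Λ[d + 1, 0] : (Δ[d + 1] : SSet.{0}).Subcomplex)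
        ∂Δ[d + 1] ⊤) := by
      constructor
      · rw [injective_iff_map_eq_zero]
        intro x hx
        obtain ⟨y, rfl⟩ := (E.exact_tm hle le_top x).1 hx
        rw [hz y, map_zero]
      · intro y
        exact (E.exact_tm_pm hle le_top y).1 (hz _)
    obtain ⟨f, hf⟩ := hδ.2 e
    have hg := E.graded (pr (∂Δ[d + 1] : (Δ[d + 1] : SSet.{0}).Subcomplex) ⊤)
    have hg' := E.graded (pr (Λ[d + 1, 0] : (Δ[d + 1] : SSet.{0}).Subcomplex) ∂Δ[d + 1])
    have hf' : E.tm (Λ[d + 1, 0] : (Δ[d + 1] : SSet.{0}).Subcomplex) ∂Δ[d + 1] ⊤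
        (hg.pr ((d : ℤ) + 1) f) = e := by
      have := hg.map_pr hg' (E.tm (Λ[d + 1, 0] : (Δ[d + 1] : SSet.{0}).Subcomplex)
        ∂Δ[d + 1] ⊤).toAddMonoidHom (-1)
        (fun {j x} hx => by
          rw [← sub_eq_add_neg]
          exact E.tm_mem hx) ((d : ℤ) + 1) f
      have h2 : ((d : ℤ) + 1 + -1) = d := by ring
      rw [h2] at this
      refine this.trans ?_
      have h3 : (E.tm (Λ[d + 1, 0] : (Δ[d + 1] : SSet.{0}).Subcomplex)
        ∂Δ[d + 1] ⊤).toAddMonoidHom f = e := hf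
      rw [h3]
      exact hg'.pr_of_mem he
    refine ⟨hg.pr ((d : ℤ) + 1) f, ?_, ?_⟩
    · push_cast
      exact hg.pr_mem _ _
    · have h5 : (fun r : MvPolynomial ℕ K => r • e) =
          E.tm (Λ[d + 1, 0] : (Δ[d + 1] : SSet.{0}).Subcomplex) ∂Δ[d + 1] ⊤ ∘
            fun r : MvPolynomial ℕ K => r • hg.pr ((d : ℤ) + 1) f := by
        funext r
        rw [Function.comp_apply, map_smul, hf']
      rw [h5] at hbij
      exact (Function.Bijective.of_comp_iff' hδ _).1 hbij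

end BPTheory

end Vale.Agent.P257
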