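import Vale.Agent.P257.H690.Grading
import Mathlib.Algebra.Category.ModuleCat.Basic
import Mathlib.Order.UpperLower.CompleteLattice
import Mathlib.Data.Set.Card
import Mathlib.Data.Fintype.BigOperators

set_option linter.all false

/-!
# Homology of the subcomplexes of a finite complex: abstract version

The cells form a finite poset `P`; the subcomplexes are the lower sets.
-/

namespace Vale.Agent.P257

variable {R : Type} [CommRing R] {σ : Type} [SetLike σ R] [AddSubgroupClass σ R]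

/-- A homology theory on the pairs of lower sets of a poset of cells. -/
structure Sys (𝒜 : ℤ → σ) (P : Type) [PartialOrder P] (dim : P → ℕ) where
  h : ∀ {A B : LowerSet P}, A ≤ B → ModuleCat.{0} R
  gr : ∀ {A B : LowerSet P} (hAB : A ≤ B), ℤ → AddSubgroup (h hAB)
  graded : ∀ {A B : LowerSet P} (hAB : A ≤ B), IsGradedModule 𝒜 (gr hAB)
  map : ∀ {A B A' B' : LowerSet P} (hAB : A ≤ B) (hAB' : A' ≤ B'), A ≤ A' → B ≤ B' →
    (h hAB →ₗ[R] h hAB')
  map_mem : ∀ {A B A' B' : LowerSet P} (hAB : A ≤ B) (hAB' : A' ≤ B') (hA : A ≤ A') (hB : B ≤ B')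
    {j : ℤ} {x : h hAB}, x ∈ gr hAB j → map hAB hAB' hA hB x ∈ gr hAB' j
  map_id : ∀ {A B : LowerSet P} (hAB : A ≤ B) (x : h hAB), map hAB hAB le_rfl le_rfl x = x
  map_map : ∀ {A B A' B' A'' B'' : LowerSet P} (hAB : A ≤ B) (hAB' : A' ≤ B') (hAB'' : A'' ≤ B'')
    (hA : A ≤ A') (hB : B ≤ B') (hA' : A' ≤ A'') (hB' : B' ≤ B'') (x : h hAB),
    map hAB' hAB'' hA' hB' (map hAB hAB' hA hB x) = map hAB hAB'' (hA.trans hA') (hB.trans hB') x
  δ : ∀ {A B C : LowerSet P} (hAB : A ≤ B) (hBC : B ≤ C), h hBC →ₗ[R] h hAB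
  δ_mem : ∀ {A B C : LowerSet P} (hAB : A ≤ B) (hBC : B ≤ C) {j : ℤ} {x : h hBC},
    x ∈ gr hBC j → δ hAB hBC x ∈ gr hAB (j - 1)
  δ_nat : ∀ {A B C A' B' C' : LowerSet P} (hAB : A ≤ B) (hBC : B ≤ C) (hAB' : A' ≤ B')
    (hBC' : B' ≤ C') (hA : A ≤ A') (hB : B ≤ B') (hC : C ≤ C') (x : h hBC),
    map hAB hAB' hA hB (δ hAB hBC x) = δ hAB' hBC' (map hBC hBC' hB hC x)
  exact_mid : ∀ {A B C : LowerSet P} (hAB : A ≤ B) (hBC : B ≤ C),
    Function.Exact (map hAB (hAB.trans hBC) le_rfl hBC) (map (hAB.trans hBC) hBC hAB le_rfl)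
  exact_δ : ∀ {A B C : LowerSet P} (hAB : A ≤ B) (hBC : B ≤ C),
    Function.Exact (map (hAB.trans hBC) hBC hAB le_rfl) (δ hAB hBC)
  exact_i : ∀ {A B C : LowerSet P} (hAB : A ≤ B) (hBC : B ≤ C),
    Function.Exact (δ hAB hBC) (map hAB (hAB.trans hBC) le_rfl hBC)
  excision : ∀ {A B C D : LowerSet P} (hAB : A ≤ B) (hCD : C ≤ D) (hAC : A ≤ C) (hBD : B ≤ D),
    B ⊓ C ≤ A → D ≤ B ⊔ C → Function.Bijective (map hAB hCD hAC hBD)
  cell : ∀ {A B : LowerSet P} (hAB : A ≤ B) (s : P), s ∉ A → (∀ x, x ∈ B ↔ x ∈ A ∨ x = s) →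
    ∃ e ∈ gr hAB (dim s), Function.Bijective fun r : R => r • e

namespace Sys

variable {𝒜 : ℤ → σ} {P : Type} [PartialOrder P] {dim : P → ℕ} (E : Sys 𝒜 P dim)

theorem h_self {A : LowerSet P} (hA : A ≤ A) (x : E.h hA) : x = 0 := by
  have h1 := E.exact_mid hA hA x
  rw [E.map_id] at h1
  exact h1.2 ⟨x, E.map_id _ x⟩

theorem map_mid_zero {A B C : LowerSet P} (hAB : A ≤ B) (hAC : A ≤ C) (hBC : B ≤ C)
    (x : E.h hAB) : E.map hAC hBC hAB le_rfl (E.map hAB hAC le_rfl hBC x) = 0 :=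
  (E.exact_mid hAB hBC _).2 ⟨x, rfl⟩

theorem δ_map_zero {A B C : LowerSet P} (hAB : A ≤ B) (hAC : A ≤ C) (hBC : B ≤ C)
    (x : E.h hAC) : E.δ hAB hBC (E.map hAC hBC hAB le_rfl x) = 0 :=
  (E.exact_δ hAB hBC _).2 ⟨x, rfl⟩

theorem map_δ_zero {A B C : LowerSet P} (hAB : A ≤ B) (hAC : A ≤ C) (hBC : B ≤ C)
    (x : E.h hBC) : E.map hAB hAC le_rfl hBC (E.δ hAB hBC x) = 0 :=
  (E.exact_i hAB hBC _).2 ⟨x, rfl⟩

theorem map_pr {A B A' B' : LowerSet P} (hAB : A ≤ B) (hAB' : A' ≤ B') (hA : A ≤ A')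
    (hB : B ≤ B') (j : ℤ) (x : E.h hAB) :
    E.map hAB hAB' hA hB ((E.graded hAB).pr j x) =
      (E.graded hAB').pr j (E.map hAB hAB' hA hB x) := by
  have := (E.graded hAB).map_pr (E.graded hAB') (E.map hAB hAB' hA hB).toAddMonoidHom 0
    (fun {j x} hx => by simpa using E.map_mem hAB hAB' hA hB hx) j x
  simpa using this

theorem δ_pr {A B C : LowerSet P} (hAB : A ≤ B) (hBC : B ≤ C) (j : ℤ) (x : E.h hBC) :
    E.δ hAB hBC ((E.graded hBC).pr j x) = (E.graded hAB).pr (j - 1) (E.δ hAB hBC x) := by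
  have := (E.graded hBC).map_pr (E.graded hAB) (E.δ hAB hBC).toAddMonoidHom (-1)
    (fun {j x} hx => by
      rw [← sub_eq_add_neg]
      exact E.δ_mem hAB hBC hx) j x
  rw [← sub_eq_add_neg] at this
  exact this

/-- graded exactness at `(C, A)` -/
theorem lift_mid {A B C : LowerSet P} (hAB : A ≤ B) (hAC : A ≤ C) (hBC : B ≤ C) {j : ℤ}
    {x : E.h hAC} (hx : x ∈ E.gr hAC j) (h0 : E.map hAC hBC hAB le_rfl x = 0) :
    ∃ y ∈ E.gr hAB j, E.map hAB hAC le_rfl hBC y = x := by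
  obtain ⟨y, hy⟩ := (E.exact_mid hAB hBC x).1 h0
  exact ⟨(E.graded hAB).pr j y, (E.graded hAB).pr_mem j y, by
    rw [E.map_pr, hy, (E.graded hAC).pr_of_mem hx]⟩

/-- graded exactness at `(C, B)` -/
theorem lift_δ {A B C : LowerSet P} (hAB : A ≤ B) (hAC : A ≤ C) (hBC : B ≤ C) {j : ℤ}
    {x : E.h hBC} (hx : x ∈ E.gr hBC j) (h0 : E.δ hAB hBC x = 0) :
    ∃ y ∈ E.gr hAC j, E.map hAC hBC hAB le_rfl y = x := by
  obtain ⟨y, hy⟩ := (E.exact_δ hAB hBC x).1 h0
  exact ⟨(E.graded hAC).pr j y, (E.graded hAC).pr_mem j y, by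
    rw [E.map_pr, hy, (E.graded hBC).pr_of_mem hx]⟩

/-- graded exactness at `(B, A)` -/
theorem lift_i {A B C : LowerSet P} (hAB : A ≤ B) (hAC : A ≤ C) (hBC : B ≤ C) {j : ℤ}
    {x : E.h hAB} (hx : x ∈ E.gr hAB j) (h0 : E.map hAB hAC le_rfl hBC x = 0) :
    ∃ y ∈ E.gr hBC (j + 1), E.δ hAB hBC y = x := by
  obtain ⟨y, hy⟩ := (E.exact_i hAB hBC x).1 h0
  refine ⟨(E.graded hBC).pr (j + 1) y, (E.graded hBC).pr_mem _ y, ?_⟩
  rw [E.δ_pr, hy, add_sub_cancel_right, (E.graded hAB).pr_of_mem hx]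

/-- Induction by attaching one cell at a time. -/
theorem cell_induction [Finite P] {A : LowerSet P} {motive : LowerSet P → Prop}
    (base : motive A)
    (step : ∀ (B' B : LowerSet P) (s : P), A ≤ B' → B' ≤ B → s ∉ B' →
      (∀ x, x ∈ B ↔ x ∈ B' ∨ x = s) → motive B' → motive B)
    {B : LowerSet P} (hAB : A ≤ B) : motive B := by
  classical
  have key : ∀ (n : ℕ) (B : LowerSet P), A ≤ B → ({x | x ∈ B ∧ x ∉ A} : Set P).ncard = n →
      motive B := by
    intro n
    induction n with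
    | zero =>
      intro B hAB hn
      rw [Set.ncard_eq_zero] at hn
      have : B = A := by
        apply le_antisymm _ hAB
        intro x hx
        by_contra hxA
        have : x ∈ ({x | x ∈ B ∧ x ∉ A} : Set P) := ⟨hx, hxA⟩
        rw [hn] at this
        exact this
      rw [this]
      exact base
    | succ n ih =>
      intro B hAB hn
      have hne : ({x | x ∈ B ∧ x ∉ A} : Set P).Nonempty := by
        rw [Set.nonempty_iff_ne_empty]
        intro h0
        rw [h0] at hn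
        simp at hn
      obtain ⟨s, hs⟩ := (Set.toFinite ({x | x ∈ B ∧ x ∉ A} : Set P)).exists_maximal hne
      obtain ⟨⟨hsB, hsA⟩, hmax⟩ := hs
      let B' : LowerSet P := ⟨{x | x ∈ B ∧ x ≠ s}, by
        rintro x y hyx ⟨hxB, hxs⟩
        refine ⟨B.lower hyx hxB, ?_⟩
        rintro rfl
        apply hxs
        have hxA : x ∉ A := fun hxA => hsA (A.lower hyx hxA)
        exact le_antisymm (hmax ⟨hxB, hxA⟩ hyx) hyx⟩
      have hB'B : B' ≤ B := fun x hx => hx.1
      have hAB' : A ≤ B' := fun x hx => ⟨hAB hx, by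
        rintro rfl
        exact hsA hx⟩
      refine step B' B s hAB' hB'B (fun hs => hs.2 rfl) ?_ (ih B' hAB' ?_)
      · intro x
        constructor
        · intro hx
          by_cases hxs : x = s
          · exact Or.inr hxs
          · exact Or.inl ⟨hx, hxs⟩
        · rintro (hx | rfl)
          · exact hx.1
          · exact hsB
      · have h1 : ({x | x ∈ B' ∧ x ∉ A} : Set P) = ({x | x ∈ B ∧ x ∉ A} : Set P) \ {s} := by
          ext x
          constructor
          · rintro ⟨⟨hx1, hx2⟩, hx3⟩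
            exact ⟨⟨hx1, hx3⟩, hx2⟩
          · rintro ⟨⟨hx1, hx3⟩, hx2⟩
            exact ⟨⟨hx1, hx2⟩, hx3⟩
        rw [h1, Set.ncard_diff_singleton_of_mem (show s ∈ ({x | x ∈ B ∧ x ∉ A} : Set P) from
          ⟨hsB, hsA⟩), hn]
        rfl
  exact key _ B hAB rfl

section Graded

variable [GradedRing 𝒜] (hneg : ∀ j : ℤ, j < 0 → ∀ r ∈ 𝒜 j, r = 0)

include hneg

theorem gen_vanish {M : Type} [AddCommGroup M] [Module R M] {gr : ℤ → AddSubgroup M}
    (hM : IsGradedModule 𝒜 gr) {b j : ℤ} (hj : j < b) {w x : M} (hw : w ∈ gr b) (hx : x ∈ gr j)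
    {r : R} (hr : r • w = x) : x = 0 := by
  obtain ⟨s, hs, rfl⟩ := hM.exists_homog hw hx hr
  rw [hneg _ (by omega) s hs, zero_smul]

/-- Relative homology vanishes below the dimension of the cells. -/
theorem vanish [Finite P] {A B : LowerSet P} (hAB : A ≤ B) (c : ℤ)
    (hc : ∀ s ∈ B, s ∉ A → c ≤ dim s) {j : ℤ} (hj : j < c) {x : E.h hAB}
    (hx : x ∈ E.gr hAB j) : x = 0 := by
  have key : (∀ s ∈ B, s ∉ A → c ≤ dim s) → ∀ (hAB : A ≤ B) (x : E.h hAB),
      x ∈ E.gr hAB j → x = 0 := by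
    refine cell_induction (A := A) (motive := fun B => (∀ s ∈ B, s ∉ A → c ≤ dim s) →
      ∀ (hAB : A ≤ B) (x : E.h hAB), x ∈ E.gr hAB j → x = 0) ?_ ?_ hAB
    · intro _ hAA x _
      exact E.h_self hAA x
    · intro B' B s hAB' hB'B hs hB ih hc hAB x hx
      obtain ⟨e, he, hbij⟩ := E.cell hB'B s hs hB
      have hdim : c ≤ dim s := hc s ((hB s).2 (Or.inr rfl)) fun hsA => hs (hAB' hsA)
      have h1 : E.map hAB hB'B hAB' le_rfl x = 0 := by
        obtain ⟨r, hr⟩ := hbij.2 (E.map hAB hB'B hAB' le_rfl x)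
        exact gen_vanish hneg (E.graded hB'B) (by omega) he (E.map_mem _ _ _ _ hx) hr
      obtain ⟨y, hy, rfl⟩ := E.lift_mid hAB' hAB hB'B hx h1
      rw [ih (fun s hs => hc s (hB'B hs)) hAB' y hy, map_zero]
  exact key hc hAB x hx

omit hneg

/-- The relative homology is free on `n` generators of degree `b`. -/
def FreeAt {A B : LowerSet P} (hAB : A ≤ B) (b : ℤ) (n : ℕ) : Prop :=
  ∃ e : Fin n → E.h hAB, (∀ i, e i ∈ E.gr hAB b) ∧
    Function.Bijective fun c : Fin n → R => ∑ i, c i • e i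

/-- The coefficients of a homogeneous element. -/
theorem coeff_mem {A B : LowerSet P} {hAB : A ≤ B} {b : ℤ} {n : ℕ} {e : Fin n → E.h hAB}
    (he : ∀ i, e i ∈ E.gr hAB b) (hbij : Function.Bijective fun c : Fin n → R => ∑ i, c i • e i)
    {j : ℤ} {c : Fin n → R} (hx : (∑ i, c i • e i) ∈ E.gr hAB j) (i : Fin n) :
    c i ∈ 𝒜 (j - b) := by
  have h1 : (∑ i, (DirectSum.decompose 𝒜 (c i) (j - b) : R) • e i) = ∑ i, c i • e i := by
    have h2 : ∀ s : Finset (Fin n), (E.graded hAB).pr j (∑ i ∈ s, c i • e i) =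
        ∑ i ∈ s, (DirectSum.decompose 𝒜 (c i) (j - b) : R) • e i := by
      intro s
      induction s using Finset.cons_induction with
      | empty => simp [(E.graded hAB).pr_zero]
      | cons a s ha ih =>
        rw [Finset.sum_cons, Finset.sum_cons, (E.graded hAB).pr_add, ih]
        congr 1
        have := (E.graded hAB).pr_smul (he a) (j - b) (c a)
        rwa [sub_add_cancel] at this
    rw [← h2, (E.graded hAB).pr_of_mem hx]
  have h3 := hbij.1 h1
  have h4 := congrFun h3 i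
  rw [← h4]
  exact SetLike.coe_mem _

theorem freeAt_self {A : LowerSet P} (hA : A ≤ A) (b : ℤ) : E.FreeAt hA b 0 := by
  refine ⟨fun i => i.elim0, fun i => i.elim0, ?_, ?_⟩
  · intro c d _
    exact funext fun i => i.elim0
  · intro x
    exact ⟨fun i => i.elim0, (E.h_self hA _).trans (E.h_self hA _).symm⟩

include hneg in
/-- Attaching a cell of dimension `b` to a complex with cells of dimension `b`. -/
theorem freeAt_succ [Finite P] {A B' B : LowerSet P} (hAB' : A ≤ B') (hAB : A ≤ B)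
    (hB'B : B' ≤ B) {b : ℕ} {n : ℕ}
    (hdim : ∀ s ∈ B', s ∉ A → dim s = b) (s : P) (hs : s ∉ B')
    (hB : ∀ x, x ∈ B ↔ x ∈ B' ∨ x = s) (hsb : dim s = b) (hF : E.FreeAt hAB' b n) :
    E.FreeAt hAB b (n + 1) := by
  obtain ⟨f, hf, hfbij⟩ := E.cell hB'B s hs hB
  rw [hsb] at hf
  obtain ⟨e, he, hebij⟩ := hF
  have hδ : E.δ hAB' hB'B f = 0 :=
    E.vanish hneg hAB' b (fun t ht htA => by rw [hdim t ht htA]) (by omega)
      (E.δ_mem hAB' hB'B hf)
  obtain ⟨e0, he0, rfl⟩ := E.lift_δ hAB' hAB hB'B hf hδ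
  refine ⟨Fin.cons e0 fun i => E.map hAB' hAB le_rfl hB'B (e i), ?_, ?_, ?_⟩
  · intro i
    refine Fin.cases ?_ (fun i => ?_) i
    · simpa using he0
    · simpa using E.map_mem _ _ _ _ (he i)
  · have hlin : ∀ c : Fin (n + 1) → R,
        (∑ i, c i • (Fin.cons e0 (fun i => E.map hAB' hAB le_rfl hB'B (e i)) :
          Fin (n + 1) → E.h hAB) i) =
        c 0 • e0 + E.map hAB' hAB le_rfl hB'B (∑ i, c i.succ • e i) := by
      intro c
      rw [Fin.sum_univ_succ, map_sum]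
      simp
    have inj0 : ∀ c : Fin (n + 1) → R,
        (∑ i, c i • (Fin.cons e0 (fun i => E.map hAB' hAB le_rfl hB'B (e i)) :
          Fin (n + 1) → E.h hAB) i) = 0 → c = 0 := by
      intro c hc
      rw [hlin] at hc
      have h1 : c 0 • E.map hAB hB'B hAB' le_rfl e0 = 0 := by
        have := congrArg (E.map hAB hB'B hAB' le_rfl) hc
        rwa [map_add, map_smul, E.map_mid_zero, add_zero, map_zero] at this
      have h2 : c 0 = 0 := hfbij.1 (by simpa using h1)
      rw [h2, zero_smul, zero_add] at hc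
      obtain ⟨y, hy⟩ := (E.exact_i hAB' hB'B _).1 hc
      obtain ⟨r, rfl⟩ := hfbij.2 y
      have h3 : (∑ i, c i.succ • e i) = 0 := by
        rw [← hy]
        change E.δ hAB' hB'B (r • E.map hAB hB'B hAB' le_rfl e0) = 0
        rw [map_smul, hδ, smul_zero]
      have h4 : (fun i : Fin n => c i.succ) = 0 := hebij.1 (by simpa using h3)
      funext i
      refine Fin.cases ?_ (fun i => ?_) i
      · exact h2
      · exact congrFun h4 i
    intro c d hcd
    have := inj0 (c - d) (by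
      simp only [Pi.sub_apply, sub_smul, Finset.sum_sub_distrib]
      exact sub_eq_zero.2 hcd)
    exact sub_eq_zero.1 this
  · intro x
    obtain ⟨r, hr⟩ := hfbij.2 (E.map hAB hB'B hAB' le_rfl x)
    have h1 : E.map hAB hB'B hAB' le_rfl (x - r • e0) = 0 := by
      rw [map_sub, map_smul]
      exact sub_eq_zero.2 hr.symm
    obtain ⟨y, hy⟩ := (E.exact_mid hAB' hB'B _).1 h1
    obtain ⟨c, hc⟩ := hebij.2 y
    refine ⟨Fin.cons r c, ?_⟩
    change (∑ i, (Fin.cons r c : Fin (n + 1) → R) i •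
      (Fin.cons e0 (fun i => E.map hAB' hAB le_rfl hB'B (e i)) : Fin (n + 1) → E.h hAB) i) = x
    rw [Fin.sum_univ_succ]
    simp only [Fin.cons_zero, Fin.cons_succ]
    have h2 : (∑ i, c i • E.map hAB' hAB le_rfl hB'B (e i)) = x - r • e0 := by
      rw [← hy, ← hc, map_sum]
      simp
    rw [h2]
    abel

include hneg in
theorem exists_freeAt [Finite P] {A B : LowerSet P} (hAB : A ≤ B) {b : ℕ}
    (hdim : ∀ s ∈ B, s ∉ A → dim s = b) : ∃ n, E.FreeAt hAB b n := by
  refine cell_induction (A := A) (motive := fun B => (∀ s ∈ B, s ∉ A → dim s = b) →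
      ∀ (hAB : A ≤ B), ∃ n, E.FreeAt hAB b n) ?_ ?_ hAB hdim hAB
  · intro _ hA
    exact ⟨0, E.freeAt_self hA b⟩
  · intro B' B s hAB' hB'B hs hB ih hdim hAB
    obtain ⟨n, hn⟩ := ih (fun t ht => hdim t (hB'B ht)) hAB'
    exact ⟨n + 1, E.freeAt_succ hneg hAB' hAB hB'B (fun t ht => hdim t (hB'B ht)) s hs hB
      (hdim s ((hB s).2 (Or.inr rfl)) fun hsA => hs (hAB' hsA)) hn⟩

/-- Attaching a cell whose boundary has a unit coefficient. -/
theorem freeAt_pred {A B B' : LowerSet P} (hAB : A ≤ B) (hAB' : A ≤ B') (hBB' : B ≤ B')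
    {b : ℤ} {n : ℕ} {e : Fin (n + 1) → E.h hAB} (he : ∀ i, e i ∈ E.gr hAB b)
    (hebij : Function.Bijective fun c : Fin (n + 1) → R => ∑ i, c i • e i)
    {f : E.h hBB'} (hfbij : Function.Bijective fun r : R => r • f)
    {c : Fin (n + 1) → R} (hc : E.δ hAB hBB' f = ∑ i, c i • e i) (i : Fin (n + 1)) {u : R}
    (hu : u * c i = 1) :
    E.FreeAt hAB' b n := by
  have hz : ∀ r : R, r * c i = 0 → r = 0 := by
    intro r hr
    calc r = r * (u * c i) := by rw [hu, mul_one]
      _ = u * (r * c i) := by ring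
      _ = 0 := by rw [hr, mul_zero]
  refine ⟨fun j => E.map hAB hAB' le_rfl hBB' (e (i.succAbove j)),
    fun j => E.map_mem _ _ _ _ (he _), ?_, ?_⟩
  · have inj0 : ∀ d : Fin n → R,
        (∑ j, d j • E.map hAB hAB' le_rfl hBB' (e (i.succAbove j))) = 0 → d = 0 := by
      intro d hd
      have h1 : E.map hAB hAB' le_rfl hBB' (∑ j, d j • e (i.succAbove j)) = 0 := by
        rw [map_sum]
        simpa using hd
      obtain ⟨y, hy⟩ := (E.exact_i hAB hBB' _).1 h1
      obtain ⟨r, rfl⟩ := hfbij.2 y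
      have h2 : (∑ k, (r * c k) • e k) = ∑ k, (i.insertNth 0 d : Fin (n + 1) → R) k • e k := by
        rw [Fin.sum_univ_succAbove (fun k =>
          (i.insertNth 0 d : Fin (n + 1) → R) k • e k) i]
        simp only [Fin.insertNth_apply_same, zero_smul, zero_add, Fin.insertNth_apply_succAbove]
        rw [← hy]
        change _ = E.δ hAB hBB' (r • f)
        rw [map_smul, hc, Finset.smul_sum]
        exact Finset.sum_congr rfl fun k _ => mul_smul _ _ _
      have h3 : (fun k => r * c k) = (i.insertNth 0 d : Fin (n + 1) → R) := hebij.1 h2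
      have h4 : r = 0 := hz r (by simpa using congrFun h3 i)
      funext j
      have := congrFun h3 (i.succAbove j)
      simp only [Fin.insertNth_apply_succAbove, h4, zero_mul] at this
      exact this.symm
    intro c d hcd
    have := inj0 (c - d) (by
      simp only [Pi.sub_apply, sub_smul, Finset.sum_sub_distrib]
      exact sub_eq_zero.2 hcd)
    exact sub_eq_zero.1 this
  · intro x
    have h1 : E.map hAB' hBB' hAB le_rfl x = 0 := by
      obtain ⟨r, hr⟩ := hfbij.2 (E.map hAB' hBB' hAB le_rfl x)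
      have h2 : E.δ hAB hBB' (r • f) = 0 := by
        change (fun r : R => r • f) r = _ at hr
        simp only at hr
        rw [hr, E.δ_map_zero]
      have h3 : (∑ k, (r * c k) • e k) = 0 := by
        rw [← h2, map_smul, hc, Finset.smul_sum]
        exact Finset.sum_congr rfl fun k _ => mul_smul _ _ _
      have h4 : (fun k => r * c k) = 0 := hebij.1 (by simpa using h3)
      have h5 : r = 0 := hz r (congrFun h4 i)
      rw [← hr]
      simp [h5]
    obtain ⟨y, rfl⟩ := (E.exact_mid hAB hBB' x).1 h1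
    obtain ⟨d, rfl⟩ := hebij.2 y
    refine ⟨fun j => d (i.succAbove j) - d i * u * c (i.succAbove j), ?_⟩
    have h6 : E.map hAB hAB' le_rfl hBB' ((d i * u) • ∑ k, c k • e k) = 0 := by
      rw [← hc, map_smul, E.map_δ_zero, smul_zero]
    have h7 : (∑ k, d k • e k) - (d i * u) • ∑ k, c k • e k =
        ∑ j, (d (i.succAbove j) - d i * u * c (i.succAbove j)) • e (i.succAbove j) := by
      rw [Finset.smul_sum, ← Finset.sum_sub_distrib, Fin.sum_univ_succAbove _ i]
      have h8 : d i • e i - (d i * u) • c i • e i = 0 := by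
        rw [smul_smul, ← sub_smul, mul_assoc, hu, mul_one, sub_self, zero_smul]
      rw [h8, zero_add]
      refine Finset.sum_congr rfl fun j _ => ?_
      rw [smul_smul, ← sub_smul]
    change (∑ j, (d (i.succAbove j) - d i * u * c (i.succAbove j)) •
      E.map hAB hAB' le_rfl hBB' (e (i.succAbove j))) = E.map hAB hAB' le_rfl hBB' (∑ k, d k • e k)
    rw [← sub_zero (E.map hAB hAB' le_rfl hBB' (∑ k, d k • e k)), ← h6, ← map_sub, h7, map_sum]
    simp

end Graded

end Sys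

end Vale.Agent.P257
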