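import Vale.Agent.P257.H690.Core

set_option linter.all false

/-!
# Bottom cells
-/

namespace Vale.Agent.P257

variable {R : Type} [CommRing R] {σ : Type} [SetLike σ R] [AddSubgroupClass σ R]

namespace Sys

variable {𝒜 : ℤ → σ} {P : Type} [PartialOrder P] {dim : P → ℕ} (E : Sys 𝒜 P dim)
  [GradedRing 𝒜] [Finite P] (hdimlt : ∀ s t : P, s < t → dim s < dim t)
  (hneg : ∀ j : ℤ, j < 0 → ∀ r ∈ 𝒜 j, r = 0) (p : R)
  (hloc : ∀ c ∈ 𝒜 0, (∃ u ∈ 𝒜 0, u * c = 1) ∨ ∃ c' ∈ 𝒜 0, c = p * c')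
  (hp : ¬ IsUnit p)

include hdimlt hneg hloc

/-- A complex `B` containing the cells of dimension `b` whose homology is free on generators of
degree `b`, and which is as large as possible. -/
theorem exists_maximal {A Z : LowerSet P} (hAZ : A ≤ Z) {b : ℕ}
    (hb : ∀ s ∈ Z, s ∉ A → b ≤ dim s) :
    ∃ (B : LowerSet P) (hAB : A ≤ B) (hBZ : B ≤ Z) (n : ℕ), (∀ s ∈ Z, dim s ≤ b → s ∈ B) ∧
      E.FreeAt hAB b n ∧
      ∀ (B' : LowerSet P) (hBB' : B ≤ B') (s : P), B' ≤ Z → s ∉ B →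
        (∀ x, x ∈ B' ↔ x ∈ B ∨ x = s) → dim s = b + 1 →
        ∀ f ∈ E.gr hBB' (b + 1), ∃ y ∈ E.gr hAB b, E.δ hAB hBB' f = p • y := by
  classical
  let Q : ℕ → Prop := fun n => ∃ (B : LowerSet P) (hAB : A ≤ B) (hBZ : B ≤ Z),
    (∀ s ∈ Z, dim s ≤ b → s ∈ B) ∧ E.FreeAt hAB b n
  have hQ : ∃ n, Q n := by
    let B : LowerSet P := ⟨{x | x ∈ Z ∧ (x ∈ A ∨ dim x ≤ b)}, by
      rintro x y hyx ⟨hxZ, hx⟩
      refine ⟨Z.lower hyx hxZ, ?_⟩
      rcases hx with hx | hx
      · exact Or.inl (A.lower hyx hx)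
      · rcases hyx.lt_or_eq with h | rfl
        · exact Or.inr ((hdimlt _ _ h).le.trans hx)
        · exact Or.inr hx⟩
    have hAB : A ≤ B := fun x hx => ⟨hAZ hx, Or.inl hx⟩
    have hBZ : B ≤ Z := fun x hx => hx.1
    obtain ⟨n, hn⟩ := E.exists_freeAt hneg hAB (b := b) (fun s hs hsA => by
      rcases hs.2 with h | h
      · exact absurd h hsA
      · exact le_antisymm h (hb s hs.1 hsA))
    exact ⟨n, B, hAB, hBZ, fun s hs h => ⟨hs, Or.inr h⟩, hn⟩
  obtain ⟨B, hAB, hBZ, hsk, hF⟩ := Nat.find_spec hQ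
  have hmin : ∀ m < Nat.find hQ, ¬ Q m := fun m hm => Nat.find_min hQ hm
  generalize Nat.find hQ = n at hF hmin
  refine ⟨B, hAB, hBZ, n, hsk, hF, ?_⟩
  intro B' hBB' s hB'Z hs hB' hds f hf
  obtain ⟨g, hg, hgbij⟩ := E.cell hBB' s hs hB'
  have hds' : (dim s : ℤ) = b + 1 := by exact_mod_cast hds
  rw [hds'] at hg
  obtain ⟨r, hr⟩ := hgbij.2 f
  obtain ⟨r0, hr0, hr0f⟩ := (E.graded hBB').exists_homog hg hf hr
  obtain ⟨e, he, hebij⟩ := hF
  obtain ⟨c, hc⟩ := hebij.2 (E.δ hAB hBB' g)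
  have hcm : ∀ i, c i ∈ 𝒜 0 := by
    intro i
    have h1 : (∑ i, c i • e i) ∈ E.gr hAB (b + 1 - 1) := by
      change (fun c : Fin n → R => ∑ i, c i • e i) c ∈ _
      rw [hc]
      exact E.δ_mem _ _ hg
    have h2 := E.coeff_mem he hebij h1 i
    have h3 : ((b : ℤ) + 1 - 1 - b) = 0 := by ring
    rwa [h3] at h2
  have hall : ∀ i, ∃ c' ∈ 𝒜 0, c i = p * c' := by
    intro i
    rcases hloc (c i) (hcm i) with ⟨u, _, hu⟩ | h
    · exfalso
      obtain ⟨m, rfl⟩ : ∃ m, n = m + 1 := ⟨n - 1, by have := i.2; omega⟩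
      exact hmin m (Nat.lt_succ_self m) ⟨B', hAB.trans hBB', hB'Z,
        fun t ht htb => hBB' (hsk t ht htb),
        E.freeAt_pred hAB (hAB.trans hBB') hBB' he hebij hgbij hc.symm i hu⟩
    · exact h
  choose c' hc'm hc' using hall
  refine ⟨r0 • ∑ i, c' i • e i, ?_, ?_⟩
  · have h1 : (∑ i, c' i • e i) ∈ E.gr hAB b := by
      refine sum_mem fun i _ => ?_
      simpa using (E.graded hAB).smul_mem (hc'm i) (he i)
    have h2 : r0 ∈ 𝒜 0 := by
      simpa using hr0
    simpa using (E.graded hAB).smul_mem h2 h1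
  · rw [← hr0f, map_smul, ← hc, smul_comm p r0]
    congr 1
    simp only [Finset.smul_sum]
    exact Finset.sum_congr rfl fun i _ => by rw [hc' i, mul_smul]

/-- The kernel in the bottom degree consists of multiples of `p`. -/
theorem exists_bottom {A Z : LowerSet P} (hAZ : A ≤ Z) {b : ℕ}
    (hb : ∀ s ∈ Z, s ∉ A → b ≤ dim s) :
    ∃ (B : LowerSet P) (hAB : A ≤ B) (hBZ : B ≤ Z) (n : ℕ), (∀ s ∈ Z, s ∉ B → b + 1 ≤ dim s) ∧
      E.FreeAt hAB b n ∧
      (∀ x ∈ E.gr hAB b, E.map hAB hAZ le_rfl hBZ x = 0 → ∃ y ∈ E.gr hAB b, x = p • y) ∧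
      ∀ z ∈ E.gr hAZ b, ∃ x ∈ E.gr hAB b, E.map hAB hAZ le_rfl hBZ x = z := by
  classical
  obtain ⟨B, hAB, hBZ, n, hsk, hF, hmax⟩ := E.exists_maximal hdimlt hneg p hloc hAZ hb
  have hsk' : ∀ s ∈ Z, s ∉ B → b + 1 ≤ dim s := by
    intro s hs hsB
    by_contra hlt
    exact hsB (hsk s hs (by omega))
  refine ⟨B, hAB, hBZ, n, hsk', hF, ?_, ?_⟩
  · -- kernel
    have key : ∀ {C : LowerSet P} (hBC : B ≤ C), C ≤ Z → ∀ (hBC : B ≤ C),
        ∀ y ∈ E.gr hBC (b + 1), ∃ u ∈ E.gr hAB b, E.δ hAB hBC y = p • u := by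
      intro C hBC
      refine cell_induction (A := B) (motive := fun C => C ≤ Z → ∀ (hBC : B ≤ C),
        ∀ y ∈ E.gr hBC (b + 1), ∃ u ∈ E.gr hAB b, E.δ hAB hBC y = p • u) ?_ ?_ hBC
      · intro _ hBB y _
        refine ⟨0, AddSubgroup.zero_mem _, ?_⟩
        rw [E.h_self hBB y, map_zero, smul_zero]
      · intro C' C s hBC' hC'C hs hC ih hCZ hBC y hy
        obtain ⟨g, hg, hgbij⟩ := E.cell hC'C s hs hC
        have hsC : s ∈ C := (hC s).2 (Or.inr rfl)
        have hsB : s ∉ B := fun h => hs (hBC' h)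
        have hds : b + 1 ≤ dim s := hsk' s (hCZ hsC) hsB
        rcases hds.lt_or_eq with hlt | heq
        · have h0 : E.map hBC hC'C hBC' le_rfl y = 0 := by
            obtain ⟨r, hr⟩ := hgbij.2 (E.map hBC hC'C hBC' le_rfl y)
            exact gen_vanish hneg (E.graded hC'C) (by omega) hg (E.map_mem _ _ _ _ hy) hr
          obtain ⟨y', hy', rfl⟩ := E.lift_mid hBC' hBC hC'C hy h0
          obtain ⟨u, hu, hu'⟩ := ih (hC'C.trans hCZ) hBC' y' hy'
          refine ⟨u, hu, ?_⟩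
          rw [← hu', ← E.δ_nat hAB hBC' hAB hBC le_rfl le_rfl hC'C, E.map_id]
        · let B' : LowerSet P := ⟨{x | x ∈ B ∨ x = s}, by
            rintro x y hyx (hx | rfl)
            · exact Or.inl (B.lower hyx hx)
            · rcases hyx.lt_or_eq with h | rfl
              · have h1 := hdimlt _ _ h
                exact Or.inl (hsk y (Z.lower hyx (hCZ hsC)) (by omega))
              · exact Or.inr rfl⟩
          have hBB' : B ≤ B' := fun x hx => Or.inl hx
          have hB'C : B' ≤ C := by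
            rintro x (hx | rfl)
            · exact hBC hx
            · exact hsC
          have hexc : Function.Bijective (E.map hBB' hC'C hBC' hB'C) := by
            refine E.excision hBB' hC'C hBC' hB'C ?_ ?_
            · rintro x ⟨hx1, hx2⟩
              rcases hx1 with hx1 | rfl
              · exact hx1
              · exact absurd hx2 hs
            · intro x hx
              rcases (hC x).1 hx with h | rfl
              · exact Or.inr h
              · exact Or.inl (Or.inr rfl)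
          obtain ⟨f0, hf0⟩ := hexc.2 (E.map hBC hC'C hBC' le_rfl y)
          obtain ⟨f, hf, hfy⟩ : ∃ f ∈ E.gr hBB' (b + 1),
              E.map hBB' hC'C hBC' hB'C f = E.map hBC hC'C hBC' le_rfl y := by
            refine ⟨(E.graded hBB').pr (b + 1) f0, (E.graded hBB').pr_mem _ _, ?_⟩
            rw [E.map_pr, hf0, (E.graded hC'C).pr_of_mem (E.map_mem _ _ _ _ hy)]
          have h0 : E.map hBC hC'C hBC' le_rfl (y - E.map hBB' hBC le_rfl hB'C f) = 0 := by
            rw [map_sub, E.map_map, hfy, sub_self]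
          obtain ⟨y', hy', hyy'⟩ := E.lift_mid hBC' hBC hC'C
            (AddSubgroup.sub_mem _ hy (E.map_mem hBB' hBC le_rfl hB'C hf)) h0
          obtain ⟨u, hu, hu'⟩ := ih (hC'C.trans hCZ) hBC' y' hy'
          obtain ⟨v, hv, hv'⟩ := hmax B' hBB' s (hB'C.trans hCZ) hsB (fun x => Iff.rfl)
            heq.symm f hf
          refine ⟨u + v, AddSubgroup.add_mem _ hu hv, ?_⟩
          have h1 : y = E.map hBC' hBC le_rfl hC'C y' + E.map hBB' hBC le_rfl hB'C f := by
            rw [hyy']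
            abel
          rw [h1, map_add, smul_add, ← hu', ← hv',
            ← E.δ_nat hAB hBC' hAB hBC le_rfl le_rfl hC'C,
            ← E.δ_nat hAB hBB' hAB hBC le_rfl le_rfl hB'C, E.map_id, E.map_id]
    intro x hx h0
    obtain ⟨y, hy, rfl⟩ := E.lift_i hAB hAZ hBZ hx h0
    exact key hBZ le_rfl hBZ y hy
  · -- surjectivity
    intro z hz
    refine E.lift_mid hAB hAZ hBZ hz ?_
    refine E.vanish hneg hBZ (b + 1) (fun s hs hsB => ?_) (by omega) (E.map_mem _ _ _ _ hz)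
    exact_mod_cast hsk' s hs hsB

include hp

/-- If the bottom homology vanishes then the bottom cells can be cancelled. -/
theorem exists_acyclic {A Z : LowerSet P} (hAZ : A ≤ Z) {b : ℕ}
    (hb : ∀ s ∈ Z, s ∉ A → b ≤ dim s) (h0 : ∀ z ∈ E.gr hAZ b, z = 0) :
    ∃ (B : LowerSet P) (hAB : A ≤ B) (hBZ : B ≤ Z), (∀ s ∈ Z, s ∉ B → b + 1 ≤ dim s) ∧
      ∀ x : E.h hAB, x = 0 := by
  obtain ⟨B, hAB, hBZ, n, hsk, ⟨e, he, hebij⟩, hker, hsurj⟩ :=
    E.exists_bottom hdimlt hneg p hloc hAZ hb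
  refine ⟨B, hAB, hBZ, hsk, ?_⟩
  have hn : n = 0 := by
    by_contra hn
    obtain ⟨m, rfl⟩ := Nat.exists_eq_succ_of_ne_zero hn
    obtain ⟨y, hy, hy'⟩ := hker (e 0) (he 0) (h0 _ (E.map_mem _ _ _ _ (he 0)))
    obtain ⟨c, rfl⟩ := hebij.2 y
    have h1 : (fun i => if i = 0 then (1 : R) else 0) = fun i => p * c i := by
      apply hebij.1
      simp only [ite_smul, one_smul, zero_smul, Finset.sum_ite_eq', Finset.mem_univ, if_true]
      rw [hy', Finset.smul_sum]
      exact Finset.sum_congr rfl fun i _ => (mul_smul _ _ _).symm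
    have h2 := congrFun h1 0
    simp only [if_true] at h2
    exact hp (IsUnit.of_mul_eq_one _ h2.symm)
  subst hn
  intro x
  obtain ⟨c, rfl⟩ := hebij.2 x
  simp

/-- If the bottom homology is cyclic and not divisible by `p` then there is a subcomplex with
homology `R`. -/
theorem exists_sphere {A Z : LowerSet P} (hAZ : A ≤ Z) {b : ℕ}
    (hb : ∀ s ∈ Z, s ∉ A → b ≤ dim s) {z : E.h hAZ} (hz : z ∈ E.gr hAZ b)
    (hcyc : ∀ x ∈ E.gr hAZ b, ∃ r ∈ 𝒜 0, r • z = x) (hne : ∀ y ∈ E.gr hAZ b, z ≠ p • y) :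
    ∃ (B : LowerSet P) (hAB : A ≤ B) (hBZ : B ≤ Z), ∃ w ∈ E.gr hAB b,
      E.map hAB hAZ le_rfl hBZ w = z ∧ Function.Bijective fun r : R => r • w := by
  obtain ⟨B, hAB, hBZ, n, hsk, ⟨e, he, hebij⟩, hker, hsurj⟩ :=
    E.exists_bottom hdimlt hneg p hloc hAZ hb
  refine ⟨B, hAB, hBZ, ?_⟩
  have h1 : ∀ i, ∃ c ∈ 𝒜 0, c • z = E.map hAB hAZ le_rfl hBZ (e i) :=
    fun i => hcyc _ (E.map_mem _ _ _ _ (he i))
  choose c hcm hc using h1
  -- some coefficient is a unit
  have h2 : ∃ i, ∃ u ∈ 𝒜 0, u * c i = 1 := by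
    by_contra hno
    push Not at hno
    have h3 : ∀ i, ∃ c' ∈ 𝒜 0, c i = p * c' := by
      intro i
      rcases hloc (c i) (hcm i) with ⟨u, hu, hu'⟩ | h
      · exact absurd hu' (hno i u hu)
      · exact h
    choose c' hc'm hc' using h3
    obtain ⟨x, hx, hxz⟩ := hsurj z hz
    obtain ⟨d, rfl⟩ := hebij.2 x
    have hd : ∀ i, d i ∈ 𝒜 0 := by
      intro i
      have := E.coeff_mem he hebij hx i
      simpa using this
    refine hne (∑ i, (d i * c' i) • z) ?_ ?_
    · refine sum_mem fun i _ => ?_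
      have h4 : d i * c' i ∈ 𝒜 0 := by
        simpa using SetLike.mul_mem_graded (hd i) (hc'm i)
      simpa using (E.graded hAZ).smul_mem h4 hz
    · have h5 : E.map hAB hAZ le_rfl hBZ (∑ i, d i • e i) = p • ∑ i, (d i * c' i) • z := by
        simp only [map_sum, map_smul]
        rw [Finset.smul_sum]
        refine Finset.sum_congr rfl fun i _ => ?_
        rw [← hc i, hc' i]
        simp only [smul_smul]
        congr 1
        ring
      exact hxz.symm.trans h5
  obtain ⟨i, u, hu, hui⟩ := h2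
  -- there is only one generator
  have h3 : ∀ j, j = i := by
    intro j
    by_contra hji
    have h4 : E.map hAB hAZ le_rfl hBZ (c i • e j - c j • e i) = 0 := by
      rw [map_sub, map_smul, map_smul, ← hc, ← hc, smul_smul, smul_smul, mul_comm, sub_self]
    obtain ⟨y, hy, hy'⟩ := hker (c i • e j - c j • e i) (by
      refine AddSubgroup.sub_mem _ ?_ ?_
      · simpa using (E.graded hAB).smul_mem (hcm i) (he j)
      · simpa using (E.graded hAB).smul_mem (hcm j) (he i)) h4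
    obtain ⟨d, rfl⟩ := hebij.2 y
    have h5 : (fun k => (if k = j then c i else 0) - if k = i then c j else 0) =
        fun k => p * d k := by
      apply hebij.1
      simp only [sub_smul, ite_smul, zero_smul, Finset.sum_sub_distrib, Finset.sum_ite_eq',
        Finset.mem_univ, if_true]
      rw [hy', Finset.smul_sum]
      exact Finset.sum_congr rfl fun i _ => (mul_smul _ _ _).symm
    have h6 := congrFun h5 j
    simp only [if_true, if_neg hji, sub_zero] at h6
    apply hp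
    refine IsUnit.of_mul_eq_one (d j * u) ?_
    rw [← mul_assoc, ← h6, mul_comm, hui]
  refine ⟨u • e i, ?_, ?_, ?_, ?_⟩
  · simpa using (E.graded hAB).smul_mem hu (he i)
  · rw [map_smul, ← hc, smul_smul, hui, one_smul]
  · intro r s hrs
    have h4 : (fun k => if k = i then r * u else 0) = fun k => if k = i then s * u else 0 := by
      apply hebij.1
      simp only [ite_smul, zero_smul, Finset.sum_ite_eq', Finset.mem_univ, if_true]
      simpa [smul_smul] using hrs
    have h5 := congrFun h4 i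
    simp only [if_true] at h5
    calc r = r * (u * c i) := by rw [hui, mul_one]
      _ = (r * u) * c i := by ring
      _ = (s * u) * c i := by rw [h5]
      _ = s * (u * c i) := by ring
      _ = s := by rw [hui, mul_one]
  · intro x
    obtain ⟨d, rfl⟩ := hebij.2 x
    refine ⟨d i * c i, ?_⟩
    have h4 : (∑ k, d k • e k) = d i • e i := by
      refine (Finset.sum_eq_single i (fun k _ hk => absurd (h3 k) hk) ?_)
      intro h
      exact absurd (Finset.mem_univ i) h
    simp only [smul_smul]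
    rw [h4, mul_assoc, mul_comm (c i) u, hui, mul_one]

/-- Relative homology with an acyclic subcomplex. -/
theorem map_bij_of_acyclic {A B Z : LowerSet P} (hAB : A ≤ B) (hAZ : A ≤ Z) (hBZ : B ≤ Z)
    (h0 : ∀ x : E.h hAB, x = 0) : Function.Bijective (E.map hAZ hBZ hAB le_rfl) := by
  constructor
  · rw [← LinearMap.ker_eq_bot, LinearMap.ker_eq_bot']
    intro x hx
    obtain ⟨y, rfl⟩ := (E.exact_mid hAB hBZ x).1 hx
    rw [h0 y, map_zero]
  · intro x
    exact (E.exact_δ hAB hBZ x).1 (h0 _)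

/-- The base case of the construction. -/
theorem exists_sphere' {A Z : LowerSet P} (hAZ : A ≤ Z) {a : ℤ}
    (hlo : ∀ j < a, ∀ x ∈ E.gr hAZ j, x = 0) {z : E.h hAZ} (hz : z ∈ E.gr hAZ a)
    (hcyc : ∀ x ∈ E.gr hAZ a, ∃ r ∈ 𝒜 0, r • z = x) (hne : ∀ y ∈ E.gr hAZ a, z ≠ p • y) :
    ∃ (B : LowerSet P) (hAB : A ≤ B) (hBZ : B ≤ Z), ∃ w ∈ E.gr hAB a,
      E.map hAB hAZ le_rfl hBZ w = z ∧ Function.Bijective fun r : R => r • w := by
  have key : ∀ (m : ℕ) (A : LowerSet P) (hAZ : A ≤ Z) (b : ℕ) (_ : (m : ℤ) = a - b)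
      (_ : ∀ s ∈ Z, s ∉ A → b ≤ dim s)
      (_ : ∀ j < a, ∀ x ∈ E.gr hAZ j, x = 0) (z : E.h hAZ) (_ : z ∈ E.gr hAZ a)
      (_ : ∀ x ∈ E.gr hAZ a, ∃ r ∈ 𝒜 0, r • z = x) (_ : ∀ y ∈ E.gr hAZ a, z ≠ p • y),
      ∃ (B : LowerSet P) (hAB : A ≤ B) (hBZ : B ≤ Z), ∃ w ∈ E.gr hAB a,
      E.map hAB hAZ le_rfl hBZ w = z ∧ Function.Bijective fun r : R => r • w := by
    intro m
    induction m with
    | zero =>
      intro A hAZ b hm hb hlo z hz hcyc hne
      have : a = b := by push_cast at hm; omega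
      subst this
      exact E.exists_sphere hdimlt hneg p hloc hp hAZ hb hz hcyc hne
    | succ m ih =>
      intro A hAZ b hm hb hlo z hz hcyc hne
      have hba : (b : ℤ) < a := by push_cast at hm; omega
      obtain ⟨B, hAB, hBZ, hsk, h0⟩ := E.exists_acyclic hdimlt hneg p hloc hp hAZ hb (hlo b hba)
      have hbij := E.map_bij_of_acyclic hdimlt hneg p hloc hp hAB hAZ hBZ h0
      have hlift : ∀ {j : ℤ} {x : E.h hBZ}, x ∈ E.gr hBZ j →
          ∃ y ∈ E.gr hAZ j, E.map hAZ hBZ hAB le_rfl y = x := by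
        intro j x hx
        exact E.lift_δ hAB hAZ hBZ hx (h0 _)
      obtain ⟨W, hBW, hWZ, w, hw, hwz, hwbij⟩ := ih B hBZ (b + 1) (by push_cast at hm ⊢; omega)
        hsk (by
          intro j hj x hx
          obtain ⟨y, hy, rfl⟩ := hlift hx
          rw [hlo j hj y hy, map_zero]) (E.map hAZ hBZ hAB le_rfl z) (E.map_mem _ _ _ _ hz)
        (by
          intro x hx
          obtain ⟨y, hy, rfl⟩ := hlift hx
          obtain ⟨r, hr, rfl⟩ := hcyc y hy
          exact ⟨r, hr, (map_smul _ _ _).symm⟩)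
        (by
          intro y hy hzy
          obtain ⟨y', hy', rfl⟩ := hlift hy
          rw [← map_smul] at hzy
          exact hne y' hy' (hbij.1 hzy))
      have hAW : A ≤ W := hAB.trans hBW
      obtain ⟨w', hw', hww⟩ := E.lift_δ hAB hAW hBW hw (h0 _)
      refine ⟨W, hAW, hWZ, w', hw', ?_, ?_, ?_⟩
      · apply hbij.1
        rw [E.map_map, ← hwz, ← hww, E.map_map]
      · intro r s hrs
        apply hwbij.1
        change r • w = s • w
        change r • w' = s • w' at hrs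
        rw [← hww, ← map_smul, hrs, map_smul]
      · intro x
        obtain ⟨r, hr⟩ := hwbij.2 (E.map hAW hBW hAB le_rfl x)
        refine ⟨r, (E.map_bij_of_acyclic hdimlt hneg p hloc hp hAB hAW hBW h0).1 ?_⟩
        change E.map hAW hBW hAB le_rfl (r • w') = _
        rw [map_smul, hww]
        exact hr
  have h0 : 0 ≤ a := by
    by_contra hlt
    have : z = 0 := E.vanish hneg hAZ 0 (fun s _ _ => Int.natCast_nonneg _) (by omega) hz
    exact hne 0 (AddSubgroup.zero_mem _) (by rw [this, smul_zero])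
  exact key a.toNat A hAZ 0 (by omega) (fun s _ _ => Nat.zero_le _) hlo z hz hcyc hne

end Sys

end Vale.Agent.P257
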