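import Vale.Agent.P257.H690.Core2
import Mathlib.RingTheory.Ideal.Span

set_option linter.all false

/-!
# Killing a regular sequence
-/

namespace Vale.Agent.P257

variable {R : Type} [CommRing R] {σ : Type} [SetLike σ R] [AddSubgroupClass σ R]

/-- The ideal `(x 0, …, x (k - 1))`. -/
def idealOf (x : ℕ → R) (k : ℕ) : Ideal R := Ideal.span {r | ∃ i < k, r = x i}

theorem idealOf_zero (x : ℕ → R) : idealOf x 0 = ⊥ := by
  simp [idealOf]

theorem idealOf_mono (x : ℕ → R) {k l : ℕ} (h : k ≤ l) : idealOf x k ≤ idealOf x l :=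
  Ideal.span_mono fun _ ⟨i, hi, hr⟩ => ⟨i, hi.trans_le h, hr⟩

theorem mem_idealOf_succ {x : ℕ → R} {k : ℕ} {r : R} :
    r ∈ idealOf x (k + 1) ↔ ∃ t, r - t * x k ∈ idealOf x k := by
  have h1 : idealOf x (k + 1) = idealOf x k ⊔ Ideal.span {x k} := by
    rw [idealOf, idealOf, ← Ideal.span_union]
    congr 1
    ext r
    constructor
    · rintro ⟨i, hi, rfl⟩
      rcases Nat.lt_succ_iff_lt_or_eq.1 hi with h | rfl
      · exact Or.inl ⟨i, h, rfl⟩
      · exact Or.inr rfl
    · rintro (⟨i, hi, rfl⟩ | h)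
      · exact ⟨i, by omega, rfl⟩
      · exact ⟨k, by omega, h⟩
  rw [h1, Submodule.mem_sup]
  constructor
  · rintro ⟨y, hy, z, hz, rfl⟩
    obtain ⟨t, rfl⟩ := Ideal.mem_span_singleton'.1 hz
    exact ⟨t, by simpa using hy⟩
  · rintro ⟨t, ht⟩
    exact ⟨_, ht, t * x k, Ideal.mem_span_singleton'.2 ⟨t, rfl⟩, by ring⟩

theorem self_mem_idealOf_succ (x : ℕ → R) (k : ℕ) : x k ∈ idealOf x (k + 1) :=
  mem_idealOf_succ.2 ⟨1, by simp⟩

/-- The algebraic input: a graded ring with a regular sequence of homogeneous elements whose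
degrees grow sufficiently fast. -/
structure GoodSeq (𝒜 : ℤ → σ) (p : R) (x : ℕ → R) (d D : ℕ → ℤ) : Prop where
  neg : ∀ j : ℤ, j < 0 → ∀ r ∈ 𝒜 j, r = 0
  loc : ∀ c ∈ 𝒜 0, (∃ u ∈ 𝒜 0, u * c = 1) ∨ ∃ c' ∈ 𝒜 0, c = p * c'
  p_mem : p ∈ 𝒜 0
  not_unit : ¬ IsUnit p
  dvd : p ∣ x 0
  mem : ∀ k, x k ∈ 𝒜 (d k)
  reg : ∀ k r, r * x k ∈ idealOf x k → r ∈ idealOf x k
  low : ∀ k i, i < d k → ∀ r ∈ 𝒜 i, r ∈ idealOf x (k + 1) → r ∈ idealOf x k
  D_zero : D 0 = 1
  D_succ : ∀ k, D (k + 1) = D k + d k + 1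
  D_le : ∀ k, 1 ≤ k → D k ≤ d k
  d_nonneg : ∀ k, 0 ≤ d k

namespace Sys

variable {𝒜 : ℤ → σ} {P : Type} [PartialOrder P] {dim : P → ℕ} (E : Sys 𝒜 P dim)
  [GradedRing 𝒜] [Finite P]

/-- In degrees below `a + D` the module `h (Z, A)` is `R / I` on the class `z` of degree `a`. -/
structure Range {A Z : LowerSet P} (hAZ : A ≤ Z) (a : ℤ) (z : E.h hAZ) (x : ℕ → R) (k : ℕ)
    (D : ℤ) : Prop where
  mem : z ∈ E.gr hAZ a
  lo : ∀ j < a, ∀ y ∈ E.gr hAZ j, y = 0
  surj : ∀ j < a + D, ∀ y ∈ E.gr hAZ j, ∃ r ∈ 𝒜 (j - a), r • z = y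
  inj : ∀ i < D, ∀ r ∈ 𝒜 i, r • z = 0 → r ∈ idealOf x (max k 1)
  ann : ∀ i < D, ∀ r ∈ 𝒜 i, r ∈ idealOf x k → r • z = 0

/-- `h (B, A)` is `R / I` on the class `w`. -/
def IsQuot {A B : LowerSet P} (hAB : A ≤ B) (w : E.h hAB) (I : Ideal R) : Prop :=
  (∀ y, ∃ r : R, r • w = y) ∧ ∀ r : R, r • w = 0 ↔ r ∈ I

variable {p : R} {x : ℕ → R} {d D : ℕ → ℤ} (hS : GoodSeq 𝒜 p x d D)

include hS

omit [GradedRing 𝒜] in
theorem _root_.Vale.Agent.P257.GoodSeq.D_pos (k : ℕ) : 1 ≤ D k := by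
  induction k with
  | zero => rw [hS.D_zero]
  | succ k ih =>
    rw [hS.D_succ]
    have := hS.d_nonneg k
    omega

theorem exists_step (hdimlt : ∀ s t : P, s < t → dim s < dim t) (k : ℕ) :
    ∀ {A Z : LowerSet P} (hAZ : A ≤ Z) (a : ℤ) (z : E.h hAZ), E.Range hAZ a z x k (D k) →
    ∃ (W : LowerSet P) (hAW : A ≤ W) (hWZ : W ≤ Z), ∃ w ∈ E.gr hAW a,
      E.map hAW hAZ le_rfl hWZ w = z ∧ E.IsQuot hAW w (idealOf x k) := by
  induction k with
  | zero =>
    intro A Z hAZ a z hz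
    have hcyc : ∀ y ∈ E.gr hAZ a, ∃ r ∈ 𝒜 0, r • z = y := by
      intro y hy
      have := hz.surj a (by rw [hS.D_zero]; omega) y hy
      simpa using this
    obtain ⟨W, hAW, hWZ, w, hw, hwz, hbij⟩ := E.exists_sphere' hdimlt hS.neg p hS.loc
      hS.not_unit hAZ hz.lo hz.mem hcyc (by
        intro y hy hzy
        obtain ⟨s, hs, rfl⟩ := hcyc y hy
        have h1 : (1 - p * s) • z = 0 := by
          rw [sub_smul, one_smul, mul_smul, ← hzy, sub_self]
        have h3 : (1 - p * s) ∈ 𝒜 0 := by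
          refine sub_mem SetLike.GradedOne.one_mem ?_
          simpa using SetLike.mul_mem_graded hS.p_mem hs
        have h4 := hz.inj 0 (by rw [hS.D_zero]; omega) _ h3 h1
        have h5 : (1 - p * s) ∈ Ideal.span {p} := by
          refine Ideal.span_le.2 ?_ h4
          rintro _ ⟨i, hi, rfl⟩
          obtain rfl : i = 0 := by simpa using hi
          exact Ideal.mem_span_singleton.2 hS.dvd
        obtain ⟨t, ht⟩ := Ideal.mem_span_singleton.1 h5
        apply hS.not_unit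
        refine IsUnit.of_mul_eq_one (t + s) ?_
        rw [mul_add, ← ht]
        ring)
    refine ⟨W, hAW, hWZ, w, hw, hwz, fun y => hbij.2 y, fun r => ?_⟩
    rw [idealOf_zero, Submodule.mem_bot]
    constructor
    · intro hr
      exact hbij.1 (by simpa using hr)
    · rintro rfl
      exact zero_smul _ _
  | succ k ih =>
    intro A Z hAZ a z hz
    have hDk := hS.D_pos k
    have hDs := hS.D_succ k
    have hdk := hS.d_nonneg k
    have hz' : E.Range hAZ a z x k (D k) := by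
      refine ⟨hz.mem, hz.lo, fun j hj => hz.surj j (by omega), ?_, ?_⟩
      · intro i hi r hr hrz
        have h1 := hz.inj i (by omega) r hr hrz
        rw [max_eq_left (Nat.le_add_left 1 k)] at h1
        rcases Nat.eq_zero_or_pos k with rfl | hk
        · exact h1
        · rw [max_eq_left hk]
          exact hS.low k i (lt_of_lt_of_le hi (hS.D_le k hk)) r hr h1
      · intro i hi r hr hrI
        exact hz.ann i (by omega) r hr (idealOf_mono x (Nat.le_succ k) hrI)
    obtain ⟨W, hAW, hWZ, w, hw, hwz, hwgen, hwann⟩ := ih hAZ a z hz'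
    have hmax : max (k + 1) 1 = k + 1 := max_eq_left (Nat.le_add_left 1 k)
    -- the class `c`
    have hxw : x k • w ∈ E.gr hAW (d k + a) := (E.graded hAW).smul_mem (hS.mem k) hw
    obtain ⟨c, hc, hδc⟩ := E.lift_i hAW hAZ hWZ hxw (by
      rw [map_smul, hwz]
      exact hz.ann (d k) (by omega) _ (hS.mem k) (self_mem_idealOf_succ x k))
    -- elements of `h (Z, A)` in the range die in `h (Z, W)`
    have hkill : ∀ j < a + D (k + 1), ∀ y ∈ E.gr hAZ j, E.map hAZ hWZ hAW le_rfl y = 0 := by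
      intro j hj y hy
      obtain ⟨r, hr, rfl⟩ := hz.surj j hj y hy
      rw [map_smul, ← hwz, E.map_mid_zero, smul_zero]
    -- boundaries
    have hbd : ∀ j < a + D (k + 1), ∀ y ∈ E.gr hWZ (j + 1), ∃ s ∈ 𝒜 (j - a),
        s • w = E.δ hAW hWZ y ∧ s ∈ idealOf x (k + 1) := by
      intro j hj y hy
      obtain ⟨r, hr⟩ := hwgen (E.δ hAW hWZ y)
      have hδy := E.δ_mem hAW hWZ hy
      rw [add_sub_cancel_right] at hδy
      obtain ⟨s, hs, hsy⟩ := (E.graded hAW).exists_homog hw hδy hr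
      refine ⟨s, hs, hsy, ?_⟩
      have h1 : s • z = 0 := by
        rw [← hwz, ← map_smul, hsy, E.map_δ_zero]
      have := hz.inj (j - a) (by omega) s hs h1
      rwa [hmax] at this
    have hcR : E.Range hWZ (d k + a + 1) c x k (D k) := by
      refine ⟨hc, ?_, ?_, ?_, ?_⟩
      · intro j hj y hy
        have hy' : y ∈ E.gr hWZ (j - 1 + 1) := by rwa [sub_add_cancel]
        obtain ⟨s, hs, hsy, hsI⟩ := hbd (j - 1) (by omega) y hy'
        have h1 : s ∈ idealOf x k := hS.low k _ (by omega) s hs hsI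
        have h2 : E.δ hAW hWZ y = 0 := by
          rw [← hsy]
          exact (hwann s).2 h1
        obtain ⟨y', hy'', rfl⟩ := E.lift_δ hAW hAZ hWZ hy h2
        exact hkill j (by omega) y' hy''
      · intro j hj y hy
        have hy' : y ∈ E.gr hWZ (j - 1 + 1) := by rwa [sub_add_cancel]
        obtain ⟨s, hs, hsy, hsI⟩ := hbd (j - 1) (by omega) y hy'
        obtain ⟨t, ht⟩ := mem_idealOf_succ.1 hsI
        have h1 : E.δ hAW hWZ (y - t • c) = 0 := by
          rw [map_sub, map_smul, hδc, ← hsy, smul_smul, ← sub_smul]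
          exact (hwann _).2 ht
        obtain ⟨u, hu⟩ := (E.exact_δ hAW hWZ _).1 h1
        refine ⟨(DirectSum.decompose 𝒜 t (j - (d k + a + 1)) : R), SetLike.coe_mem _, ?_⟩
        have h2 := (E.graded hWZ).pr_smul hc (j - (d k + a + 1)) t
        rw [sub_add_cancel] at h2
        rw [← h2]
        have h3 : y = E.map hAZ hWZ hAW le_rfl u + t • c := by
          rw [hu]
          abel
        have h4 : (E.graded hWZ).pr j (E.map hAZ hWZ hAW le_rfl u) = 0 := by
          rw [← E.map_pr]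
          exact hkill j (by omega) _ ((E.graded hAZ).pr_mem j u)
        calc (E.graded hWZ).pr j (t • c)
            = (E.graded hWZ).pr j (E.map hAZ hWZ hAW le_rfl u) +
                (E.graded hWZ).pr j (t • c) := by rw [h4, zero_add]
          _ = (E.graded hWZ).pr j y := by rw [← (E.graded hWZ).pr_add, ← h3]
          _ = y := (E.graded hWZ).pr_of_mem hy
      · intro i hi r hr hrc
        apply idealOf_mono x (le_max_left k 1)
        apply hS.reg
        rw [← hwann, mul_smul, ← hδc, ← map_smul, hrc, map_zero]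
      · intro i hi r hr hrI
        have h1 : E.δ hAW hWZ (r • c) = 0 := by
          rw [map_smul, hδc, smul_smul]
          exact (hwann _).2 (Ideal.mul_mem_right _ _ hrI)
        obtain ⟨y, hy, hyc⟩ := E.lift_δ hAW hAZ hWZ ((E.graded hWZ).smul_mem hr hc) h1
        rw [← hyc]
        exact hkill _ (by omega) y hy
    obtain ⟨W', hWW', hW'Z, w', hw', hw'c, hw'gen, hw'ann⟩ := ih hWZ (d k + a + 1) c hcR
    have hAW' : A ≤ W' := hAW.trans hWW'
    have hδw' : E.δ hAW hWW' w' = x k • w := by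
      have := E.δ_nat hAW hWW' hAW hWZ le_rfl le_rfl hW'Z w'
      rw [E.map_id, hw'c, hδc] at this
      exact this
    refine ⟨W', hAW', hW'Z, E.map hAW hAW' le_rfl hWW' w, E.map_mem _ _ _ _ hw, ?_, ?_, ?_⟩
    · rw [E.map_map]
      exact hwz
    · intro y
      obtain ⟨r, hr⟩ := hw'gen (E.map hAW' hWW' hAW le_rfl y)
      have h1 : r • x k • w = 0 := by
        rw [← hδw', ← map_smul, hr, E.δ_map_zero]
      have h2 : r ∈ idealOf x k := hS.reg k r (by rw [← hwann, mul_smul]; exact h1)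
      have h3 : E.map hAW' hWW' hAW le_rfl y = 0 := by
        rw [← hr]
        exact (hw'ann r).2 h2
      obtain ⟨u, rfl⟩ := (E.exact_mid hAW hWW' y).1 h3
      obtain ⟨s, rfl⟩ := hwgen u
      exact ⟨s, (map_smul _ _ _).symm⟩
    · intro r
      rw [← map_smul, (E.exact_i hAW hWW' _), mem_idealOf_succ]
      constructor
      · rintro ⟨y, hy⟩
        obtain ⟨s, rfl⟩ := hw'gen y
        refine ⟨s, ?_⟩
        rw [← hwann, sub_smul, mul_smul, ← hδw', ← map_smul, hy, sub_self]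
      · rintro ⟨t, ht⟩
        refine ⟨t • w', ?_⟩
        rw [← hwann, sub_smul, mul_smul, sub_eq_zero] at ht
        rw [map_smul, hδw', ht]

/-- Cyclic modules `R / (x 0, …, x (n - 1))` agree with `R / (x 0, …, x (m - 1))`, `m ≤ n`, in
the range. -/
theorem range_of_isQuot (hd : Monotone d) {A Z : LowerSet P} (hAZ : A ≤ Z) {a : ℤ} {z : E.h hAZ}
    (hz : z ∈ E.gr hAZ a) {n m : ℕ} (hm : m ≤ n) (hzq : E.IsQuot hAZ z (idealOf x n)) :
    E.Range hAZ a z x m (D m) := by
  refine ⟨hz, ?_, ?_, ?_, ?_⟩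
  · intro j hj y hy
    obtain ⟨r, hr⟩ := hzq.1 y
    exact gen_vanish hS.neg (E.graded hAZ) hj hz hy hr
  · intro j _ y hy
    obtain ⟨r, hr⟩ := hzq.1 y
    exact (E.graded hAZ).exists_homog hz hy hr
  · intro i hi r hr hrz
    have h1 : r ∈ idealOf x n := (hzq.2 r).1 hrz
    have key : ∀ t, r ∈ idealOf x (max m 1 + t) → r ∈ idealOf x (max m 1) := by
      intro t
      induction t with
      | zero => exact id
      | succ t ih =>
        intro h
        apply ih
        refine hS.low (max m 1 + t) i ?_ r hr h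
        have h1 : D m ≤ D (max m 1) := by
          rcases Nat.eq_zero_or_pos m with rfl | hm
          · have h0 := hS.D_succ 0
            rw [zero_add] at h0
            have := hS.d_nonneg 0
            have := hS.D_zero
            simp only [Nat.zero_max]
            omega
          · rw [max_eq_left hm]
        have h2 := hS.D_le (max m 1) (le_max_right _ _)
        have h3 := hd (Nat.le_add_right (max m 1) t)
        omega
    rcases le_total n (max m 1) with h | h
    · exact idealOf_mono x h h1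
    · obtain ⟨t, rfl⟩ := Nat.exists_eq_add_of_le h
      exact key t h1
  · intro i _ r _ hrI
    exact (hzq.2 r).2 (idealOf_mono x hm hrI)

/-- The decomposition of `R / (x 0, …, x k)` into two copies of `R / (x 0, …, x (k - 1))`. -/
theorem exists_split (hdimlt : ∀ s t : P, s < t → dim s < dim t) (hd : Monotone d)
    {A Z : LowerSet P} (hAZ : A ≤ Z) {a : ℤ} {z : E.h hAZ} (hz : z ∈ E.gr hAZ a) {k : ℕ}
    (hzq : E.IsQuot hAZ z (idealOf x (k + 1))) :
    ∃ (W : LowerSet P) (hAW : A ≤ W) (hWZ : W ≤ Z), ∃ w ∈ E.gr hAW a,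
      ∃ w' ∈ E.gr hWZ (a + d k + 1),
        E.map hAW hAZ le_rfl hWZ w = z ∧ E.δ hAW hWZ w' = x k • w ∧
        E.IsQuot hAW w (idealOf x k) ∧ E.IsQuot hWZ w' (idealOf x k) := by
  obtain ⟨W, hAW, hWZ, w, hw, hwz, hwgen, hwann⟩ := E.exists_step hS hdimlt k hAZ a z
    (E.range_of_isQuot hS hd hAZ hz (Nat.le_succ k) hzq)
  have hxw : x k • w ∈ E.gr hAW (d k + a) := (E.graded hAW).smul_mem (hS.mem k) hw
  obtain ⟨c, hc, hδc⟩ := E.lift_i hAW hAZ hWZ hxw (by
    rw [map_smul, hwz]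
    exact (hzq.2 _).2 (self_mem_idealOf_succ x k))
  rw [add_comm (d k) a] at hc
  have hsurj : ∀ y, E.map hAZ hWZ hAW le_rfl y = 0 := by
    intro y
    obtain ⟨r, rfl⟩ := hzq.1 y
    rw [map_smul, ← hwz, E.map_mid_zero, smul_zero]
  have hinj : ∀ y, E.δ hAW hWZ y = 0 → y = 0 := by
    intro y hy
    obtain ⟨u, rfl⟩ := (E.exact_δ hAW hWZ y).1 hy
    exact hsurj u
  refine ⟨W, hAW, hWZ, w, hw, c, hc, hwz, hδc, ⟨hwgen, hwann⟩, ?_, ?_⟩
  · intro y
    obtain ⟨r, hr⟩ := hwgen (E.δ hAW hWZ y)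
    have h1 : r ∈ idealOf x (k + 1) := by
      rw [← hzq.2, ← hwz, ← map_smul, hr, E.map_δ_zero]
    obtain ⟨t, ht⟩ := mem_idealOf_succ.1 h1
    refine ⟨t, ?_⟩
    rw [← sub_eq_zero]
    apply hinj
    rw [map_sub, map_smul, hδc, ← hr, smul_smul, ← sub_smul, ← neg_sub, neg_smul,
      (hwann _).2 ht, neg_zero]
  · intro r
    constructor
    · intro h
      apply hS.reg
      rw [← hwann, mul_smul, ← hδc, ← map_smul, h, map_zero]
    · intro h
      apply hinj
      rw [map_smul, hδc, smul_smul, hwann]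
      exact Ideal.mul_mem_right _ _ h

end Sys

end Vale.Agent.P257
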