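import Mathlib.AlgebraicTopology.SimplicialSet.Monoidal
import Mathlib.AlgebraicTopology.SimplicialSet.Finite
import Mathlib.Algebra.DirectSum.Decomposition
import Mathlib.Algebra.Exact.Basic
import Mathlib.Algebra.Category.ModuleCat.Basic
import Mathlib.Algebra.Category.CommAlgCat.Basic
import Mathlib.RingTheory.MvPolynomial.WeightedHomogeneous
import Mathlib.RingTheory.TensorProduct.Basic
import Mathlib.RingTheory.Ideal.Quotient.Operations
import Mathlib.RingTheory.DiscreteValuationRing.Basic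

set_option linter.all false

/-!
# Homology theories with coefficients `BP_*` on pairs of simplicial sets; Smith–Toda complexes
-/

namespace Vale.Agent.P257

open CategoryTheory Simplicial TensorProduct

/-- A pair `(X, A)` of simplicial sets, `A ⊆ X`. -/
structure SPair where
  X : SSet.{0}
  A : X.Subcomplex

namespace SPair

/-- Maps of pairs. -/
structure Hom (P Q : SPair) where
  f : P.X ⟶ Q.X
  le : P.A ≤ Q.A.preimage f

/-- The pair `(X, ∅)`. -/
def abs (X : SSet.{0}) : SPair := ⟨X, ⊥⟩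

/-- The map `(X, ∅) → (Y, B)` given by a map `X → Y`. -/
def ofAbs {X : SSet.{0}} {Q : SPair} (f : X ⟶ Q.X) : (abs X).Hom Q := ⟨f, bot_le⟩

/-- The pair `(X × Δ¹, A × Δ¹)`. -/
def cyl (P : SPair) : SPair :=
  ⟨MonoidalCategoryStruct.tensorObj P.X Δ[1],
    P.A.preimage (SemiCartesianMonoidalCategory.fst P.X Δ[1])⟩

/-- The projection `(X × Δ¹, A × Δ¹) → (X, A)`. -/
def cylFst (P : SPair) : P.cyl.Hom P := ⟨SemiCartesianMonoidalCategory.fst P.X Δ[1], le_rfl⟩

/-- A subcomplex `W` with `A ⊆ W ⊆ X`. -/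
structure Mid (P : SPair) where
  W : P.X.Subcomplex
  le : P.A ≤ W

/-- The pair `(W, A)`. -/
def lower (P : SPair) (M : P.Mid) : SPair := ⟨M.W, P.A.preimage M.W.ι⟩

/-- The pair `(X, W)`. -/
def upper (P : SPair) (M : P.Mid) : SPair := ⟨P.X, M.W⟩

/-- The map `(W, A) → (X, A)`. -/
def incl (P : SPair) (M : P.Mid) : (P.lower M).Hom P := ⟨M.W.ι, le_rfl⟩

end SPair

/-- The degree `|v_k| = 2 (p ^ k - 1)`. -/
def deg (p k : ℕ) : ℤ := 2 * ((p : ℤ) ^ k - 1)

/-- `v_0 = p`, and `v_k` for `k ≥ 1` is the variable `X (k - 1)` of `K[v_1, v_2, …]`. -/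
noncomputable def v (p : ℕ) (K : Type) [CommRing K] (k : ℕ) : MvPolynomial ℕ K :=
  if k = 0 then (p : MvPolynomial ℕ K) else MvPolynomial.X (k - 1)

/-- `r` is homogeneous of degree `i`, where `v_k` has degree `2 (p ^ k - 1)`. -/
def IsHomog (p : ℕ) {K : Type} [CommRing K] (r : MvPolynomial ℕ K) (i : ℤ) : Prop :=
  MvPolynomial.IsWeightedHomogeneous (fun m => deg p (m + 1)) r i

/-- A generalized homology theory on pairs of simplicial sets with the formal properties of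
`BP`-homology (for `K = ℤ_(p)`): the Eilenberg–Steenrod axioms without the dimension axiom, the
coefficients being `BP_* = K[v_1, v_2, …]`, and a coaction of a Hopf algebroid `(BP_*, Γ)`. -/
structure BPTheory (p : ℕ) (K : Type) [CommRing K] where
  /-- the `BP_*`-module `E_*(X, A)` -/
  H : SPair → ModuleCat.{0} (MvPolynomial ℕ K)
  /-- `E_j(X, A)` -/
  gr : ∀ P, ℤ → AddSubgroup (H P)
  isInternal : ∀ P, DirectSum.IsInternal (gr P)
  smul_mem : ∀ {P i j} {r : MvPolynomial ℕ K} {x : H P}, IsHomog p r i → x ∈ gr P j →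
    r • x ∈ gr P (i + j)
  /-- functoriality -/
  map : ∀ {P Q : SPair}, P.Hom Q → H P → H Q
  isLinearMap_map : ∀ {P Q : SPair} (φ : P.Hom Q), IsLinearMap (MvPolynomial ℕ K) (map φ)
  map_mem : ∀ {P Q : SPair} (φ : P.Hom Q) {j} {x : H P}, x ∈ gr P j → map φ x ∈ gr Q j
  map_id : ∀ {P : SPair} (φ : P.Hom P) (x), φ.f = 𝟙 P.X → map φ x = x
  map_comp : ∀ {P Q S : SPair} (φ : P.Hom Q) (χ : Q.Hom S) (ω : P.Hom S) (x), ω.f = φ.f ≫ χ.f →
    map χ (map φ x) = map ω x
  /-- the boundary map `E_j(X, A) → E_{j-1}(A)` -/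
  bd : ∀ P : SPair, H P → H (SPair.abs P.A)
  isLinearMap_bd : ∀ P, IsLinearMap (MvPolynomial ℕ K) (bd P)
  bd_mem : ∀ {P j} {x : H P}, x ∈ gr P j → bd P x ∈ gr (SPair.abs P.A) (j - 1)
  bd_nat : ∀ {P Q : SPair} (φ : P.Hom Q) (χ : (SPair.abs P.A).Hom (SPair.abs Q.A)) (x),
    χ.f ≫ Q.A.ι = P.A.ι ≫ φ.f → map χ (bd P x) = bd Q (map φ x)
  /-- exactness of `E(A) → E(X) → E(X, A)` -/
  exact₁ : ∀ P : SPair, Function.Exact (map (SPair.ofAbs (Q := SPair.abs P.X) P.A.ι))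
    (map (SPair.ofAbs (Q := P) (𝟙 P.X)))
  /-- exactness of `E(X) → E(X, A) → E(A)` -/
  exact₂ : ∀ P : SPair, Function.Exact (map (SPair.ofAbs (Q := P) (𝟙 P.X))) (bd P)
  /-- exactness of `E(X, A) → E(A) → E(X)` -/
  exact₃ : ∀ P : SPair, Function.Exact (bd P) (map (SPair.ofAbs (Q := SPair.abs P.X) P.A.ι))
  /-- homotopy invariance: `E(X × Δ¹, A × Δ¹) ≅ E(X, A)` -/
  homotopy : ∀ P : SPair, Function.Bijective (map P.cylFst)
  /-- excision: relative isomorphisms induce isomorphisms -/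
  excision : ∀ {P Q : SPair} (φ : P.Hom Q), (∀ n, Set.BijOn (φ.f.app n) (P.A.obj n)ᶜ (Q.A.obj n)ᶜ) →
    Function.Bijective (map φ)
  /-- the coefficients `E_*(pt) ≅ BP_*` -/
  coeff : ∃ u ∈ gr (SPair.abs Δ[0]) 0, Function.Bijective fun r : MvPolynomial ℕ K => r • u
  /-- the ring `Γ = BP_*BP`, an algebra by the right unit, with left unit `ηL` and counit `ε` -/
  Γ : CommAlgCat.{0} (MvPolynomial ℕ K)
  ηL : MvPolynomial ℕ K →+* Γ
  ε : Γ →ₐ[MvPolynomial ℕ K] MvPolynomial ℕ K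
  grΓ : ℤ → AddSubgroup Γ
  grΓ_neg : ∀ {j} {γ : Γ}, j < 0 → γ ∈ grΓ j → γ = 0
  grΓ_zero : ∀ {γ : Γ}, γ ∈ grΓ 0 → ∃ r : MvPolynomial ℕ K, γ = algebraMap _ _ r
  /-- the coaction -/
  ψ : ∀ P, H P → Γ ⊗[MvPolynomial ℕ K] H P
  ψ_add : ∀ {P : SPair} (x y : H P), ψ P (x + y) = ψ P x + ψ P y
  ψ_smul : ∀ {P : SPair} (r : MvPolynomial ℕ K) (x : H P), ψ P (r • x) = ηL r • ψ P x
  ψ_counit : ∀ {P : SPair} (x : H P), TensorProduct.lid _ _ (ε.toLinearMap.rTensor (H P) (ψ P x)) = x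
  ψ_degree : ∀ {P} {j : ℤ} {x : H P}, x ∈ gr P j → ψ P x ∈ AddSubgroup.closure
    fun t => ∃ i : ℤ, ∃ γ ∈ grΓ i, ∃ m ∈ gr P (j - i), t = γ ⊗ₜ[MvPolynomial ℕ K] m

namespace BPTheory

variable {p : ℕ} {K : Type} [CommRing K] (E : BPTheory p K)

/-- `E_*(P) ≅ Σ^a BP_* / (v_0, …, v_{k-1})` as graded comodules; the isomorphism `f` takes the
generator `1` to `z`, and it is compatible with the coactions, the coaction of
`BP_* / (v_0, …, v_{k-1})` being `r ↦ ηL r ⊗ 1`. For `k = n + 1` this says that the pair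
`P = (X, A)` is a Smith–Toda complex `V(n)`, up to a shift by `a`. -/
def IsSmithToda (k : ℕ) (a : ℤ) (P : SPair) (z : E.H P) : Prop :=
  z ∈ E.gr P a ∧
    ∃ f : MvPolynomial ℕ K ⧸ Ideal.span (v p K '' Set.Iio k) → E.H P,
      IsLinearMap (MvPolynomial ℕ K) f ∧ Function.Bijective f ∧ f 1 = z ∧
        ∀ r, E.ψ P (f (Ideal.Quotient.mk _ r)) = E.ηL r ⊗ₜ[MvPolynomial ℕ K] z

/-- A Smith–Toda complex `V(n)` exists for the theory `E`. -/
def HasSmithToda (n : ℕ) : Prop :=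
  ∃ P : SPair, P.X.Finite ∧ ∃ a z, E.IsSmithToda (n + 1) a P z

/-- The dimension `∑_{i ≤ n} (2 p ^ i - 1)` of `V(n)`. -/
def dimV (p n : ℕ) : ℤ := ∑ i ∈ Finset.range (n + 1), (2 * (p : ℤ) ^ i - 1)

/-- The homology of the pair `P` vanishes below degree `a`, is `K / p`, generated by `z`, in degree
`a`, and vanishes in the degrees `a + 1, …, a + N`. -/
structure IsModPPoint (a N : ℤ) (P : SPair) (z : E.H P) : Prop where
  mem : z ∈ E.gr P a
  ne_zero : z ≠ 0
  p_smul : (p : MvPolynomial ℕ K) • z = 0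
  gen : ∀ y ∈ E.gr P a, ∃ c : K, (MvPolynomial.C c : MvPolynomial ℕ K) • z = y
  below : ∀ j < a, ∀ y ∈ E.gr P j, y = 0
  above : ∀ j, a < j → j ≤ a + N → ∀ y ∈ E.gr P j, y = 0

/-- The boundary map `E(X, W) → E(W, A)` of a triple `A ⊆ W ⊆ X`. -/
def triBd {P : SPair} (M : P.Mid) (x : E.H (P.upper M)) : E.H (P.lower M) :=
  E.map (SPair.ofAbs (Q := P.lower M) (𝟙 _)) (E.bd (P.upper M) x)

/-- `E.IsTower k a P z`: the pair `P = (X, A)` is obtained from `2 ^ k` spheres by iterated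
extensions realizing multiplication by `v_0, …, v_{k-1}`. For `k = 0` the homology of `P` is free
on `z`, of degree `a`. For `k + 1` there is `A ⊆ W ⊆ X` such that `(W, A)` and `(X, W)` are towers
for `k`, with generators `w` of degree `a` and `w'` of degree `a + |v_k| + 1`, the boundary map of
the triple takes `w'` to `v_k w`, and `w` maps to `z`. -/
inductive IsTower : ℕ → ℤ → (P : SPair) → E.H P → Prop
  | sphere {a P z} : E.IsSmithToda 0 a P z → IsTower 0 a P z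
  | extension {k a P} (M : P.Mid) {w w'} : IsTower k a (P.lower M) w →
      IsTower k (a + deg p k + 1) (P.upper M) w' → E.triBd M w' = v p K k • w →
      IsTower (k + 1) a P (E.map (P.incl M) w)

end BPTheory

end Vale.Agent.P257
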