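import Vale.Agent.P257.H690.ToSys
import Vale.Agent.P257.H690.BPRing

set_option linter.all false

/-!
# Smith–Toda complexes: proofs
-/

namespace Vale.Agent.P257

open CategoryTheory Simplicial SSet TensorProduct

namespace BPTheory

variable {p : ℕ} {K : Type} [CommRing K] (E : BPTheory p K)

/-- `E_*(P) ≅ Σ^a R / I`, with the generator corresponding to `z`. -/
structure IsCyc (I : Ideal (MvPolynomial ℕ K)) (a : ℤ) (P : SPair) (z : E.H P) : Prop where
  mem : z ∈ E.gr P a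
  gen : ∀ y, ∃ r : MvPolynomial ℕ K, r • z = y
  ann : ∀ r : MvPolynomial ℕ K, r • z = 0 ↔ r ∈ I

/-- In degrees below `a + D`, `E_*(P)` is `Σ^a R / I`, with the generator corresponding to `z`. -/
structure IsCycBelow (I : Ideal (MvPolynomial ℕ K)) (a D : ℤ) (P : SPair) (z : E.H P) : Prop where
  mem : z ∈ E.gr P a
  lo : ∀ j < a, ∀ y ∈ E.gr P j, y = 0
  gen : ∀ j < D, ∀ y ∈ E.gr P (a + j), ∃ r ∈ grading p K j, r • z = y
  ann : ∀ j < D, ∀ r ∈ grading p K j, (r • z = 0 ↔ r ∈ I)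

/-! ### Comparison of a pair with a pair of subcomplexes -/

section model

variable {Z : SSet.{0}} (SA ST : LowerSet Z.N) (hT : sub ST = (⊤ : Z.Subcomplex))

/-- the comparison map `(⊤, A ∩ ⊤) → (Z, A)` -/
def θ (A : LowerSet Z.N) : (pr (sub A) (sub ST)).Hom ⟨Z, sub A⟩ := ⟨(sub ST).ι, le_rfl⟩

include hT in
theorem θ_bijective (A : LowerSet Z.N) : Function.Bijective (E.map (θ ST A)) :=
  E.top_bijective (sub A) (sub ST) hT

/-- the intermediate subcomplex given by `W` -/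
def mid {W : LowerSet Z.N} (hAW : SA ≤ W) : (⟨Z, sub SA⟩ : SPair).Mid := ⟨sub W, sub_mono hAW⟩

theorem sq₁ {W : LowerSet Z.N} (hAW : SA ≤ W) (hWT : W ≤ ST) (hAT : SA ≤ ST)
    (x : E.H (pr (sub SA) (sub W))) :
    E.map (SPair.incl ⟨Z, sub SA⟩ (mid SA hAW)) x =
      E.map (θ ST SA) ((E.toSys Z).map hAW hAT le_rfl hWT x) := by
  symm
  exact E.map_comp _ _ _ x rfl

theorem sq₂ {W : LowerSet Z.N} (hAW : SA ≤ W) (hWT : W ≤ ST)
    (x : E.H (pr (sub W) (sub ST))) :
    E.triBd (mid SA hAW) (E.map (θ ST W) x) = (E.toSys Z).δ hAW hWT x := by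
  have h0 : E.triBd (mid SA hAW) (E.map (θ ST W) x) =
      E.map (SPair.ofAbs (Q := pr (sub SA) (sub W)) (𝟙 _))
        (E.bd ⟨Z, sub W⟩ (E.map (θ ST W) x)) := rfl
  have h1 := E.bd_nat (θ ST W) (eHom (sub W) (sub ST)) x rfl
  rw [h0, ← h1]
  rfl

end model

theorem isCyc_of_isQuot {I : Ideal (MvPolynomial ℕ K)} {a : ℤ} {Q : SPair} {Z : SSet.{0}}
    {A B : LowerSet Z.N} {hAB : A ≤ B} (φ : (pr (sub A) (sub B)).Hom Q)
    (hφ : Function.Bijective (E.map φ)) {z : E.H (pr (sub A) (sub B))} (hz : z ∈ E.gr _ a)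
    (hq : (E.toSys Z).IsQuot hAB z I) : E.IsCyc I a Q (E.map φ z) := by
  refine ⟨E.map_mem φ hz, ?_, ?_⟩
  · intro y
    obtain ⟨y, rfl⟩ := hφ.2 y
    obtain ⟨r, rfl⟩ := hq.1 y
    exact ⟨r, (E.map_smul' φ r z).symm⟩
  · intro r
    rw [← hq.2 r, ← E.map_smul' φ r z]
    exact map_eq_zero_iff (E.mapL φ) hφ.1

theorem isQuot_of_isCyc {I : Ideal (MvPolynomial ℕ K)} {a : ℤ} {Q : SPair} {Z : SSet.{0}}
    {A B : LowerSet Z.N} {hAB : A ≤ B} (φ : (pr (sub A) (sub B)).Hom Q)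
    (hφ : Function.Bijective (E.map φ)) {z : E.H (pr (sub A) (sub B))}
    (hq : E.IsCyc I a Q (E.map φ z)) : (E.toSys Z).IsQuot hAB z I := by
  constructor
  · intro y
    obtain ⟨r, hr⟩ := hq.gen (E.map φ y)
    exact ⟨r, hφ.1 ((E.map_smul' φ r z).trans hr)⟩
  · intro r
    rw [← hq.ann r, ← E.map_smul' φ r z]
    exact (map_eq_zero_iff (E.mapL φ) hφ.1).symm

section

variable {x : ℕ → MvPolynomial ℕ K} {c : MvPolynomial ℕ K} {d D : ℕ → ℤ}
  (hS : GoodSeq (grading p K) c x d D)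

include hS

theorem exists_split (hd : Monotone d) (P : SPair) [P.X.Finite] {k : ℕ} {a : ℤ} {z : E.H P}
    (hz : E.IsCyc (idealOf x (k + 1)) a P z) :
    ∃ (M : P.Mid) (w : E.H (P.lower M)) (w' : E.H (P.upper M)),
      E.IsCyc (idealOf x k) a (P.lower M) w ∧ E.IsCyc (idealOf x k) (a + d k + 1) (P.upper M) w' ∧
      E.map (P.incl M) w = z ∧ E.triBd M w' = x k • w := by
  obtain ⟨Z, A⟩ := P
  obtain ⟨SA, rfl⟩ := exists_sub A
  obtain ⟨ST, hT⟩ := exists_sub (⊤ : Z.Subcomplex)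
  have hAT : SA ≤ ST := by
    rw [← sub_le_iff, hT]
    exact le_top
  obtain ⟨z₁, hz₁, rfl⟩ := E.exists_lift (θ ST SA) (E.θ_bijective ST hT SA) hz.mem
  haveI : Z.Finite := inferInstanceAs (SPair.X ⟨Z, sub SA⟩).Finite
  haveI : Finite Z.N := inferInstance
  have hzq : (E.toSys Z).IsQuot hAT z₁ (idealOf x (k + 1)) :=
    E.isQuot_of_isCyc (θ ST SA) (E.θ_bijective ST hT SA) hz
  obtain ⟨W, hAW, hWT, w, hw, w', hw', hwz, hδ, hwq, hwq'⟩ := (E.toSys Z).exists_split hS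
    (fun s t hst => N.dim_lt_of_lt hst) hd hAT hz₁ hzq
  refine ⟨mid SA hAW, w, E.map (θ ST W) w', ⟨hw, hwq.1, hwq.2⟩,
    E.isCyc_of_isQuot (θ ST W) (E.θ_bijective ST hT W) hw' hwq', ?_, ?_⟩
  · refine (E.sq₁ SA ST hAW hWT hAT w).trans ?_
    rw [hwz]
  · exact (E.sq₂ SA ST hAW hWT w').trans hδ

theorem exists_sub_of_below (P : SPair) [P.X.Finite] {k : ℕ} {a : ℤ} {z : E.H P}
    (hz : E.IsCycBelow (idealOf x k) a (D k) P z) :
    ∃ (M : P.Mid) (w : E.H (P.lower M)),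
      E.IsCyc (idealOf x k) a (P.lower M) w ∧ E.map (P.incl M) w = z := by
  obtain ⟨Z, A⟩ := P
  obtain ⟨SA, rfl⟩ := exists_sub A
  obtain ⟨ST, hT⟩ := exists_sub (⊤ : Z.Subcomplex)
  have hAT : SA ≤ ST := by
    rw [← sub_le_iff, hT]
    exact le_top
  have hbij := E.θ_bijective ST hT SA
  obtain ⟨z₁, hz₁, rfl⟩ := E.exists_lift (θ ST SA) hbij hz.mem
  haveI : Z.Finite := inferInstanceAs (SPair.X ⟨Z, sub SA⟩).Finite
  haveI : Finite Z.N := inferInstance
  have hinj : ∀ y, E.map (θ ST SA) y = 0 → y = 0 := fun y hy =>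
    (map_eq_zero_iff (E.mapL (θ ST SA)) hbij.1).1 hy
  have hrange : (E.toSys Z).Range hAT a z₁ x k (D k) := by
    refine ⟨hz₁, ?_, ?_, ?_, ?_⟩
    · intro j hj y hy
      exact hinj y (hz.lo j hj _ (E.map_mem _ hy))
    · intro j hj y hy
      obtain ⟨r, hr, hry⟩ := hz.gen (j - a) (by omega) (E.map (θ ST SA) y) (by
        rw [add_sub_cancel]
        exact E.map_mem _ hy)
      exact ⟨r, hr, hbij.1 ((E.map_smul' _ _ _).trans hry)⟩
    · intro i hi r hr hrz
      apply idealOf_mono x (le_max_left k 1)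
      rw [← hz.ann i hi r hr, ← E.map_smul']
      have h1 : r • z₁ = 0 := hrz
      rw [h1]
      exact E.map_zero' _
    · intro i hi r hr hrI
      rw [← hz.ann i hi r hr, ← E.map_smul'] at hrI
      exact hinj _ hrI
  obtain ⟨W, hAW, hWT, w, hw, hwz, hwq⟩ := (E.toSys Z).exists_step hS
    (fun s t hst => N.dim_lt_of_lt hst) k hAT a _ hrange
  refine ⟨mid SA hAW, w, ⟨hw, hwq.1, hwq.2⟩, ?_⟩
  refine (E.sq₁ SA ST hAW hWT hAT w).trans ?_
  rw [hwz]

end

theorem IsCyc.transport {I : Ideal (MvPolynomial ℕ K)} {a : ℤ} {P Q : SPair} (φ : P.Hom Q)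
    (hφ : Function.Bijective (E.map φ)) {z : E.H P} (h : E.IsCyc I a P z) :
    E.IsCyc I a Q (E.map φ z) := by
  refine ⟨E.map_mem φ h.mem, ?_, ?_⟩
  · intro y
    obtain ⟨y, rfl⟩ := hφ.2 y
    obtain ⟨r, rfl⟩ := h.gen y
    exact ⟨r, (E.map_smul' φ r z).symm⟩
  · intro r
    rw [← h.ann r, ← E.map_smul' φ r z]
    exact map_eq_zero_iff (E.mapL φ) hφ.1

theorem IsCyc.transport' {I : Ideal (MvPolynomial ℕ K)} {a : ℤ} {P Q : SPair} (φ : P.Hom Q)
    (hφ : Function.Bijective (E.map φ)) {z : E.H P} (hz : z ∈ E.gr P a)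
    (h : E.IsCyc I a Q (E.map φ z)) : E.IsCyc I a P z := by
  refine ⟨hz, ?_, ?_⟩
  · intro y
    obtain ⟨r, hr⟩ := h.gen (E.map φ y)
    exact ⟨r, hφ.1 ((E.map_smul' φ r z).trans hr)⟩
  · intro r
    rw [← h.ann r, ← E.map_smul' φ r z]
    exact (map_eq_zero_iff (E.mapL φ) hφ.1).symm

theorem isCyc_pr {x : ℕ → MvPolynomial ℕ K} {k : ℕ}
    (hreg : ∀ r, r * x k ∈ idealOf x k → r ∈ idealOf x k) {Z : SSet.{0}}
    {A W T : Z.Subcomplex} (hAW : A ≤ W) (hWT : W ≤ T) {a b : ℤ}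
    {w : E.H (pr A W)} {u : E.H (pr W T)}
    (hw : E.IsCyc (idealOf x k) a (pr A W) w) (hu : E.IsCyc (idealOf x k) b (pr W T) u)
    (hδ : E.tm A W T u = x k • w) :
    E.IsCyc (idealOf x (k + 1)) a (pr A T) (E.pm (le_refl A) hWT w) := by
  refine ⟨E.map_mem _ hw.mem, ?_, ?_⟩
  · intro y
    obtain ⟨r, hr⟩ := hu.gen (E.pm hAW (le_refl T) y)
    have h3 : r • x k • w = 0 := by
      rw [← hδ, ← map_smul, hr]
      exact (E.exact_tm hAW hWT _).2 ⟨y, rfl⟩
    have h4 : r ∈ idealOf x k := hreg r (by rw [← hw.ann, mul_smul]; exact h3)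
    have h5 : E.pm hAW (le_refl T) y = 0 := by
      rw [← hr]
      exact (hu.ann r).2 h4
    obtain ⟨t, rfl⟩ := (E.exact_mid hAW hWT y).1 h5
    obtain ⟨s, rfl⟩ := hw.gen t
    exact ⟨s, (map_smul _ _ _).symm⟩
  · intro r
    rw [← map_smul, (E.exact_tm_pm hAW hWT _), mem_idealOf_succ]
    constructor
    · rintro ⟨y, hy⟩
      obtain ⟨s, rfl⟩ := hu.gen y
      refine ⟨s, ?_⟩
      rw [← hw.ann, sub_smul, mul_smul, ← hδ, ← map_smul, hy, sub_self]
    · rintro ⟨t, ht⟩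
      refine ⟨t • u, ?_⟩
      rw [← hw.ann, sub_smul, mul_smul, sub_eq_zero] at ht
      rw [map_smul, hδ, ht]

/-- The cofibre of a map inducing multiplication by `x k`. -/
theorem isCyc_of_triple {x : ℕ → MvPolynomial ℕ K} {k : ℕ}
    (hreg : ∀ r, r * x k ∈ idealOf x k → r ∈ idealOf x k) {P : SPair} (M : P.Mid) {a b : ℤ}
    {w : E.H (P.lower M)} {w' : E.H (P.upper M)}
    (hw : E.IsCyc (idealOf x k) a (P.lower M) w) (hw' : E.IsCyc (idealOf x k) b (P.upper M) w')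
    (hδ : E.triBd M w' = x k • w) : E.IsCyc (idealOf x (k + 1)) a P (E.map (P.incl M) w) := by
  let θA : (pr P.A ⊤).Hom P := ⟨(⊤ : P.X.Subcomplex).ι, le_rfl⟩
  let θW : (pr M.W ⊤).Hom (P.upper M) := ⟨(⊤ : P.X.Subcomplex).ι, le_rfl⟩
  have hA : Function.Bijective (E.map θA) := E.top_bijective P.A ⊤ rfl
  have hW : Function.Bijective (E.map θW) := E.top_bijective M.W ⊤ rfl
  obtain ⟨u, hu, rfl⟩ := E.exists_lift θW hW hw'.mem
  have h1 : E.map (P.incl M) w = E.map θA (E.pm (le_refl P.A) (le_top : M.W ≤ ⊤) w) := by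
    symm
    exact E.map_comp _ _ _ w rfl
  have h2 : E.triBd M (E.map θW u) = E.tm P.A M.W ⊤ u := by
    have h0 : E.triBd M (E.map θW u) =
        E.map (SPair.ofAbs (Q := P.lower M) (𝟙 _)) (E.bd (P.upper M) (E.map θW u)) := rfl
    have h1 := E.bd_nat θW (eHom M.W ⊤) u rfl
    rw [h0, ← h1]
    rfl
  rw [h2] at hδ
  rw [h1]
  exact IsCyc.transport E θA hA
    (E.isCyc_pr hreg M.le le_top hw (IsCyc.transport' E θW hW hu hw') hδ)

/-- In the lowest degree, a generator is primitive. -/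
theorem primitive {P : SPair} {a : ℤ} {w : E.H P} (hw : w ∈ E.gr P a)
    (hlo : ∀ j < a, ∀ m ∈ E.gr P j, m = 0)
    (hgen : ∀ m ∈ E.gr P a, ∃ r : MvPolynomial ℕ K, r • w = m) :
    E.ψ P w = 1 ⊗ₜ[MvPolynomial ℕ K] w := by
  have key : ∀ t ∈ AddSubgroup.closure (fun t : (E.Γ : Type) ⊗[MvPolynomial ℕ K] E.H P =>
      ∃ i : ℤ, ∃ γ ∈ E.grΓ i, ∃ m ∈ E.gr P (a - i), t = γ ⊗ₜ[MvPolynomial ℕ K] m),
      ∃ r : MvPolynomial ℕ K, t = 1 ⊗ₜ[MvPolynomial ℕ K] (r • w) := by
    intro t ht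
    induction ht using AddSubgroup.closure_induction with
    | mem t ht =>
      obtain ⟨i, γ, hγ, m, hm, rfl⟩ := ht
      rcases lt_trichotomy i 0 with hi | rfl | hi
      · rw [E.grΓ_neg hi hγ]
        exact ⟨0, by simp⟩
      · rw [sub_zero] at hm
        obtain ⟨r, rfl⟩ := E.grΓ_zero hγ
        obtain ⟨s, rfl⟩ := hgen m hm
        refine ⟨r * s, ?_⟩
        rw [Algebra.algebraMap_eq_smul_one, TensorProduct.smul_tmul, smul_smul]
      · rw [hlo _ (by omega) m hm]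
        exact ⟨0, by simp⟩
    | zero => exact ⟨0, by simp⟩
    | add t t' _ _ ht ht' =>
      obtain ⟨r, rfl⟩ := ht
      obtain ⟨r', rfl⟩ := ht'
      exact ⟨r + r', by rw [add_smul, TensorProduct.tmul_add]⟩
    | neg t _ ht =>
      obtain ⟨r, rfl⟩ := ht
      exact ⟨-r, by rw [neg_smul, TensorProduct.tmul_neg]⟩
  obtain ⟨r, hr⟩ := key _ (E.ψ_degree hw)
  have h1 := E.ψ_counit w
  rw [hr] at h1 ⊢
  simp at h1
  rw [h1]

omit E in
theorem smul_one_mk {I : Ideal (MvPolynomial ℕ K)} (r : MvPolynomial ℕ K) :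
    r • (1 : MvPolynomial ℕ K ⧸ I) = Ideal.Quotient.mk I r := by
  change Ideal.Quotient.mk I (r • 1) = Ideal.Quotient.mk I r
  rw [smul_eq_mul, mul_one]

variable [IsDomain K] [IsDiscreteValuationRing K] (hp : 2 ≤ p) (hK : Irreducible (p : K))

include hp hK

theorem isSmithToda_iff {k : ℕ} {a : ℤ} {P : SPair} {z : E.H P} :
    E.IsSmithToda k a P z ↔ E.IsCyc (idealOf (v p K) k) a P z := by
  rw [idealOf_eq_span]
  constructor
  · rintro ⟨hz, f, hlin, hbij, hf, -⟩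
    refine ⟨hz, fun y => ?_, fun r => ?_⟩
    · obtain ⟨y, rfl⟩ := hbij.2 y
      obtain ⟨r, rfl⟩ := Ideal.Quotient.mk_surjective y
      refine ⟨r, ?_⟩
      rw [← hf, ← hlin.map_smul, smul_one_mk]
    · have h0 : f 0 = 0 := hlin.map_zero
      rw [← hf, ← hlin.map_smul, smul_one_mk, ← Ideal.Quotient.eq_zero_iff_mem]
      constructor
      · intro h
        exact hbij.1 (h.trans h0.symm)
      · intro h
        exact (congrArg f h).trans h0
  · intro hz
    have hlo : ∀ j < a, ∀ y ∈ E.gr P j, y = 0 := by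
      intro j hj y hy
      obtain ⟨r, hr⟩ := hz.gen y
      exact Sys.gen_vanish (goodSeq hp hK).neg (E.graded P) hj hz.mem hy hr
    have hprim : E.ψ P z = 1 ⊗ₜ[MvPolynomial ℕ K] z :=
      E.primitive hz.mem hlo fun m _ => hz.gen m
    refine ⟨hz.mem, ?_⟩
    have hker : LinearMap.ker (LinearMap.toSpanSingleton (MvPolynomial ℕ K) (E.H P) z) =
        Ideal.span (v p K '' Set.Iio k) := by
      ext r
      rw [LinearMap.mem_ker, LinearMap.toSpanSingleton_apply]
      exact hz.ann r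
    let f : (MvPolynomial ℕ K ⧸ Ideal.span (v p K '' Set.Iio k)) ≃ₗ[MvPolynomial ℕ K] E.H P :=
      (Submodule.quotEquivOfEq _ _ hker.symm).trans
        (LinearMap.quotKerEquivOfSurjective
          (LinearMap.toSpanSingleton (MvPolynomial ℕ K) (E.H P) z) fun y => hz.gen y)
    have hf : ∀ r : MvPolynomial ℕ K, f (Ideal.Quotient.mk _ r) = r • z := fun r => rfl
    refine ⟨f, f.toLinearMap.isLinear, f.bijective, ?_, fun r => ?_⟩
    · have := hf 1
      rw [one_smul] at this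
      exact this
    · rw [hf, E.ψ_smul, hprim, TensorProduct.smul_tmul', smul_eq_mul, mul_one]

theorem isTower_of_isSmithToda (k : ℕ) : ∀ (a : ℤ) (P : SPair) [P.X.Finite] (z : E.H P),
    E.IsSmithToda k a P z → E.IsTower k a P z := by
  induction k with
  | zero => intro a P _ z hz; exact IsTower.sphere hz
  | succ k ih =>
    intro a P _ z hz
    rw [E.isSmithToda_iff hp hK] at hz
    obtain ⟨M, w, w', hw, hw', rfl, hδ⟩ := E.exists_split (goodSeq hp hK) (deg_mono hp) P hz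
    haveI : (P.lower M).X.Finite := inferInstanceAs (M.W : SSet.{0}).Finite
    haveI : (P.upper M).X.Finite := inferInstanceAs P.X.Finite
    exact IsTower.extension M (ih _ _ _ ((E.isSmithToda_iff hp hK).2 hw))
      (ih _ _ _ ((E.isSmithToda_iff hp hK).2 hw')) hδ

theorem isSmithToda_of_isTower {k : ℕ} {a : ℤ} {P : SPair} {z : E.H P} (h : E.IsTower k a P z) :
    E.IsSmithToda k a P z := by
  induction h with
  | sphere h => exact h
  | extension M hw hw' hδ ih ih' =>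
    rw [E.isSmithToda_iff hp hK] at ih ih' ⊢
    exact E.isCyc_of_triple ((goodSeq hp hK).reg _) M ih ih' hδ

omit [IsDomain K] [IsDiscreteValuationRing K] hp hK in
theorem bound_succ (n : ℕ) : bound p (n + 1) = dimV p n + 1 := by
  rw [bound, dimV, add_comm]
  congr 1
  refine Finset.sum_congr rfl fun i _ => ?_
  rw [deg]
  ring

omit E in
theorem dimV_lt (n : ℕ) : dimV p n < deg p (n + 1) := by
  have := (goodSeq hp hK).D_le (n + 1) (Nat.le_add_left 1 n)
  rw [bound_succ] at this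
  omega

omit E in
theorem dimV_mono {m n : ℕ} (h : m ≤ n) : dimV p m ≤ dimV p n := by
  have key : ∀ n, dimV p n ≤ dimV p (n + 1) := by
    intro n
    have h1 := bound_succ (p := p) n
    have h2 := bound_succ (p := p) (n + 1)
    have h3 := (goodSeq hp hK).D_succ (n + 1)
    have h4 := (goodSeq hp hK).d_nonneg (n + 1)
    omega
  exact monotone_nat_of_le_succ key h

/-- The homology of `V(n)` satisfies the vanishing condition. -/
theorem isModPPoint_of_isSmithToda {n : ℕ} {a : ℤ} {P : SPair} {z : E.H P}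
    (hz : E.IsSmithToda (n + 1) a P z) : E.IsModPPoint a (dimV p n) P z := by
  rw [E.isSmithToda_iff hp hK] at hz
  refine ⟨hz.mem, ?_, ?_, ?_, ?_, ?_⟩
  · intro h
    apply one_not_mem hK (k := n + 1)
    rw [← hz.ann, h, smul_zero]
  · rw [hz.ann]
    have : (p : MvPolynomial ℕ K) = MvPolynomial.C (p : K) := by simp
    rw [this, C_mem_idealOf]
  · intro y hy
    obtain ⟨r, hr⟩ := hz.gen y
    obtain ⟨s, hs, rfl⟩ := (E.graded P).exists_homog hz.mem hy hr
    rw [sub_self] at hs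
    obtain ⟨c, rfl⟩ := eq_C_of_mem_zero hp hs
    exact ⟨c, rfl⟩
  · intro j hj y hy
    obtain ⟨r, hr⟩ := hz.gen y
    exact Sys.gen_vanish (goodSeq hp hK).neg (E.graded P) hj hz.mem hy hr
  · intro j hj hj' y hy
    obtain ⟨r, hr⟩ := hz.gen y
    obtain ⟨s, hs, rfl⟩ := (E.graded P).exists_homog hz.mem hy hr
    rw [hz.ann]
    have := dimV_lt hp hK n
    exact mem_idealOf_of_pos hp (by omega) (by omega) hs

omit [IsDomain K] [IsDiscreteValuationRing K] hp hK in
theorem IsModPPoint.mono {a N N' : ℤ} {P : SPair} {z : E.H P} (h : E.IsModPPoint a N P z)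
    (hN : N' ≤ N) : E.IsModPPoint a N' P z :=
  ⟨h.mem, h.ne_zero, h.p_smul, h.gen, h.below, fun j h1 h2 => h.above j h1 (by omega)⟩

theorem isCycBelow_of_isModPPoint {n : ℕ} {a : ℤ} {P : SPair} {z : E.H P}
    (hz : E.IsModPPoint a (dimV p n) P z) :
    E.IsCycBelow (idealOf (v p K) (n + 1)) a (bound p (n + 1)) P z := by
  rw [bound_succ]
  refine ⟨hz.mem, hz.below, ?_, ?_⟩
  · intro j hj y hy
    rcases lt_trichotomy j 0 with h | rfl | h
    · rw [hz.below (a + j) (by omega) y hy]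
      exact ⟨0, zero_mem _, zero_smul _ _⟩
    · rw [add_zero] at hy
      obtain ⟨c, rfl⟩ := hz.gen y hy
      exact ⟨_, C_mem_zero c, rfl⟩
    · rw [hz.above (a + j) (by omega) (by omega) y hy]
      exact ⟨0, zero_mem _, zero_smul _ _⟩
  · intro j hj r hr
    rcases lt_trichotomy j 0 with h | rfl | h
    · rw [grading_neg hp h hr]
      simp
    · obtain ⟨c, rfl⟩ := eq_C_of_mem_zero hp hr
      rw [C_mem_idealOf]
      constructor
      · intro h
        rcases unit_or_dvd hK c with hc | hc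
        · exfalso
          obtain ⟨u, hu⟩ := hc.exists_left_inv
          apply hz.ne_zero
          have : (MvPolynomial.C u : MvPolynomial ℕ K) • (MvPolynomial.C c : MvPolynomial ℕ K) • z
              = 0 := by
            rw [h, smul_zero]
          rwa [smul_smul, ← map_mul, hu, map_one, one_smul] at this
        · exact hc
      · rintro ⟨e, rfl⟩
        rw [mul_comm, map_mul, mul_smul]
        have : (MvPolynomial.C (p : K) : MvPolynomial ℕ K) = (p : MvPolynomial ℕ K) := by simp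
        rw [this, hz.p_smul, smul_zero]
    · have h1 : r • z = 0 := by
        refine hz.above (j + a) (by omega) (by omega) _ ?_
        exact (E.graded P).smul_mem hr hz.mem
      have h2 : r ∈ idealOf (v p K) (n + 1) := by
        have := dimV_lt hp hK n
        exact mem_idealOf_of_pos hp h (by omega) hr
      exact ⟨fun _ => h2, fun _ => h1⟩

theorem exists_of_isModPPoint {n : ℕ} {a : ℤ} {P : SPair} [P.X.Finite] {z : E.H P}
    (hz : E.IsModPPoint a (dimV p n) P z) {m : ℕ} (hm : m ≤ n) :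
    ∃ (M : P.Mid) (w : _), E.IsSmithToda (m + 1) a (P.lower M) w ∧ E.map (P.incl M) w = z := by
  obtain ⟨M, w, hw, hwz⟩ := E.exists_sub_of_below (goodSeq hp hK) P
    (E.isCycBelow_of_isModPPoint hp hK (IsModPPoint.mono E hz (dimV_mono hp hK hm)))
  exact ⟨M, w, (E.isSmithToda_iff hp hK).2 hw, hwz⟩

end BPTheory

end Vale.Agent.P257
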