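import Vale.Agent.P257.H690.Cells
import Vale.Agent.P257.H690.Core3

set_option linter.all false

/-!
# The system attached to a homology theory and a simplicial set
-/

namespace Vale.Agent.P257

open CategoryTheory Simplicial Limits Opposite SSet

section

variable {Z : SSet.{0}}

/-- the subcomplex consisting of the simplices in `S` -/
def sub (S : LowerSet Z.N) : Z.Subcomplex := ⨆ s : S, s.1.subcomplex

theorem subcomplex_le_iff_mem (s : Z.N) (A : Z.Subcomplex) :
    s.subcomplex ≤ A ↔ s.simplex ∈ A.obj _ := Subcomplex.ofSimplex_le_iff _ _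

theorem subcomplex_le_sup (s : Z.N) (A B : Z.Subcomplex) :
    s.subcomplex ≤ A ⊔ B ↔ s.subcomplex ≤ A ∨ s.subcomplex ≤ B := by
  rw [subcomplex_le_iff_mem, subcomplex_le_iff_mem, subcomplex_le_iff_mem]
  rfl

theorem subcomplex_le_sub (s : Z.N) (S : LowerSet Z.N) : s.subcomplex ≤ sub S ↔ s ∈ S := by
  constructor
  · intro h
    rw [subcomplex_le_iff_mem, sub, Subfunctor.iSup_obj, Set.mem_iUnion] at h
    obtain ⟨⟨t, ht⟩, h⟩ := h
    rw [← subcomplex_le_iff_mem] at h
    exact S.lower h ht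
  · intro h
    exact le_iSup (fun s : S => s.1.subcomplex) ⟨s, h⟩

theorem sub_le_iff {S T : LowerSet Z.N} : sub S ≤ sub T ↔ S ≤ T := by
  rw [N.subcomplex_le_iff]
  simp only [subcomplex_le_sub]
  rfl

theorem sub_mono {S T : LowerSet Z.N} (h : S ≤ T) : sub S ≤ sub T := sub_le_iff.2 h

theorem sub_eq_sup {S T U : LowerSet Z.N} (h : ∀ x, x ∈ S ⊔ T ↔ x ∈ U) :
    sub S ⊔ sub T = sub U := by
  apply le_antisymm
  · refine sup_le (sub_mono fun x hx => (h x).1 (Or.inl hx)) (sub_mono fun x hx => (h x).1 (Or.inr hx))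
  · rw [N.subcomplex_le_iff]
    intro s hs
    rw [subcomplex_le_sub, ← h] at hs
    rw [subcomplex_le_sup, subcomplex_le_sub, subcomplex_le_sub]
    exact hs

theorem sub_eq_inf {S T U : LowerSet Z.N} (h : ∀ x, x ∈ S ⊓ T ↔ x ∈ U) :
    sub S ⊓ sub T = sub U := by
  apply le_antisymm
  · rw [N.subcomplex_le_iff]
    intro s hs
    rw [le_inf_iff, subcomplex_le_sub, subcomplex_le_sub] at hs
    rw [subcomplex_le_sub, ← h]
    exact hs
  · exact le_inf (sub_mono fun x hx => ((h x).2 hx).1) (sub_mono fun x hx => ((h x).2 hx).2)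

theorem exists_sub (A : Z.Subcomplex) : ∃ S : LowerSet Z.N, sub S = A := by
  refine ⟨⟨{s | s.subcomplex ≤ A}, fun s t hts hs => le_trans (N.le_iff.1 hts) hs⟩, ?_⟩
  apply le_antisymm
  · rw [N.subcomplex_le_iff]
    intro s hs
    rw [subcomplex_le_sub] at hs
    exact hs
  · rw [N.subcomplex_le_iff]
    intro s hs
    rw [subcomplex_le_sub]
    exact hs

theorem preimage_sub (A : LowerSet Z.N) (s : Z.N) (hs : s ∉ A) (hlt : ∀ t < s, t ∈ A) :
    (sub A).preimage (SSet.yonedaEquiv.symm s.simplex) = ∂Δ[s.dim] := by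
  rw [stdSimplex.eq_boundary_iff]
  constructor
  · rw [Subcomplex.le_iff_contains_nonDegenerate]
    rintro n ⟨y, hy₁⟩ hy₂
    have hn : n < s.dim := dim_lt_of_nonDegenerate (X := ∂Δ[s.dim])
      ⟨⟨y, hy₂⟩, ((∂Δ[s.dim] : Δ[s.dim].Subcomplex).mem_nonDegenerate_iff _).2 hy₁⟩ s.dim
    obtain ⟨f, rfl⟩ := stdSimplex.objEquiv.symm.surjective y
    have h1 : (S.mk (Z.map f.op s.simplex)).toN.subcomplex =
        Subcomplex.ofSimplex (Z.map f.op s.simplex) := S.subcomplex_toN _
    have h2 : (S.mk (Z.map f.op s.simplex)).toN ≤ s := by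
      rw [N.le_iff, h1]
      exact Subcomplex.ofSimplex_map_le f s.simplex
    have h3 : (S.mk (Z.map f.op s.simplex)).toN < s := by
      refine lt_of_le_of_ne h2 ?_
      intro h
      have h4 := (S.mk (Z.map f.op s.simplex)).dim_toN_le
      rw [h] at h4
      exact absurd h4 (not_le_of_gt hn)
    have h5 := hlt _ h3
    rw [← subcomplex_le_sub, h1, Subcomplex.ofSimplex_le_iff] at h5
    exact h5
  · intro h
    apply hs
    rw [← subcomplex_le_sub, subcomplex_le_iff_mem]
    have h1 : stdSimplex.objEquiv.symm (𝟙 _) ∈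
        ((sub A).preimage (SSet.yonedaEquiv.symm s.simplex)).obj _ := by
      rw [h]
      trivial
    have h2 : Z.map (𝟙 ⦋s.dim⦌).op s.simplex ∈ (sub A).obj _ := h1
    simpa using h2

end

namespace BPTheory

variable {p : ℕ} {K : Type} [CommRing K] (E : BPTheory p K)

/-- The homology of the pairs of subcomplexes of `Z`. -/
noncomputable def toSys (Z : SSet.{0}) : Sys (grading p K) Z.N (fun s => s.dim) where
  h {A B} _ := E.H (pr (sub A) (sub B))
  gr _ := E.gr _
  graded _ := E.graded _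
  map _ _ hA hB := E.pm (sub_mono hA) (sub_mono hB)
  map_mem _ _ _ _ _ _ hx := E.map_mem _ hx
  map_id _ x := E.pm_id x
  map_map _ _ _ hA hB hA' hB' x := E.pm_pm _ _ _ _ x
  δ {A B C} _ _ := E.tm (sub A) (sub B) (sub C)
  δ_mem _ _ _ _ hx := E.tm_mem hx
  δ_nat _ _ _ _ hA hB hC x := E.tm_nat _ _ (sub_mono hC) x
  exact_mid hAB hBC := E.exact_mid (sub_mono hAB) (sub_mono hBC)
  exact_δ hAB hBC := E.exact_tm (sub_mono hAB) (sub_mono hBC)
  exact_i hAB hBC := E.exact_tm_pm (sub_mono hAB) (sub_mono hBC)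
  excision {A B C D} hAB hCD hAC hBD h1 h2 := by
    have hsup : sub B ⊔ sub C = sub D :=
      sub_eq_sup fun x => ⟨fun hx => hx.elim (fun h => hBD h) (fun h => hCD h), fun hx => h2 hx⟩
    have hinf : sub B ⊓ sub C = sub A :=
      sub_eq_inf fun x => ⟨fun hx => h1 hx, fun hx => ⟨hAB hx, hAC hx⟩⟩
    apply E.excision
    intro n
    refine ⟨?_, ?_, ?_⟩
    · rintro ⟨y, hy⟩ hyA hyC
      apply hyA
      have h3 : y ∈ (sub B ⊓ sub C).obj n := ⟨hy, hyC⟩
      rw [hinf] at h3
      exact h3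
    · rintro ⟨y, hy⟩ _ ⟨y', hy'⟩ _ h
      have h' := congrArg Subtype.val h
      exact Subtype.ext h'
    · rintro ⟨y, hy⟩ hyC
      have h3 : y ∈ (sub B ⊔ sub C).obj n := by
        rw [hsup]
        exact hy
      rcases h3 with h3 | h3
      · exact ⟨⟨y, h3⟩, fun h => hyC (sub_mono hAC n h), rfl⟩
      · exact absurd h3 hyC
  cell {A B} hAB s hs hB := by
    have hlt : ∀ t < s, t ∈ A := fun t ht => by
      rcases (hB t).1 (B.lower ht.le ((hB s).2 (Or.inr rfl))) with h | h
      · exact h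
      · exact absurd h ht.ne
    have hsup : sub A ⊔ Subcomplex.ofSimplex s.simplex = sub B := by
      change sub A ⊔ s.subcomplex = sub B
      apply le_antisymm
      · refine sup_le (sub_mono hAB) ?_
        rw [subcomplex_le_sub]
        exact (hB s).2 (Or.inr rfl)
      · rw [N.subcomplex_le_iff]
        intro t ht
        rw [subcomplex_le_sub, hB] at ht
        rcases ht with ht | rfl
        · exact ((subcomplex_le_sub t A).2 ht).trans le_sup_left
        · exact le_sup_right
    exact E.gen_transport (charMap s.simplex (preimage_sub A s hs hlt) hsup)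
      (E.excision _ (charMap_bijOn s.simplex (preimage_sub A s hs hlt) hsup s.nonDegenerate))
      (E.sphere s.dim)

end BPTheory

end Vale.Agent.P257
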